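import Vale.Agent.P098.Six.S14.Root

/-!
# P098, six dimensions: checked pieces of the tree
-/

namespace Vale.Agent.P098.Six.S14

/-- A piece of the tree. -/
noncomputable def tree27 : Tree LeafX :=
  .s2
    (.s0
    (.leaf (.box ⟨512, 1, 124, 10, -5, 49, 904011, 0, 0, 0, 0, 1189811294, 0⟩ ⟨0, 0, 0, 0, 0, 0, 744874, 0, 0, 0, 0, 0, 0⟩ ⟨0, 0, 0, 0, 0, 0, 744874, 0, 0, 0, 0, 0, 0⟩ ⟨0, 0, 0, 0, 0, 0, 633377, 0, 0, 0, 0, 0, 0⟩ ⟨0, 0, 0, 0, 0, 0, 633377, 0, 0, 0, 0, 0, 0⟩ ⟨512, 2, 52, 16, -5, 27, 550913, 0, 0, 0, 0, 5827826800, 0⟩))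
    (.leaf (.skip 8 0)))
    (.leaf (.skip 8 0))

/-- A piece of the tree. -/
noncomputable def tree28 : Tree LeafX :=
  .s1
    (.s0
    (.leaf (.box ⟨194, -1, -676, 6, 5, 102, 737321, 0, 0, 0, 0, 0, 0⟩ ⟨132, -2, -512, 15, 14, 80, 207366, 0, 0, 0, 0, 0, 0⟩ ⟨132, -2, -512, 15, 14, 80, 207366, 0, 0, 0, 0, 0, 0⟩ ⟨122, -3, -512, 17, 15, 84, 197898, 0, 0, 0, 0, 0, 0⟩ ⟨122, -3, -512, 17, 15, 84, 197898, 0, 0, 0, 0, 0, 0⟩ ⟨114, -2, -512, 12, 9, 89, 323914, 0, 0, 0, 0, 0, 0⟩))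
    (.s2
    (.leaf (.box ⟨129, 1, -512, 11, 10, 107, 401564, 0, 0, 0, 0, 0, 0⟩ ⟨0, 0, 0, 0, 0, 0, 334915, 0, 0, 0, 0, 0, 0⟩ ⟨0, 0, 0, 0, 0, 0, 334915, 0, 0, 0, 0, 0, 0⟩ ⟨0, 0, 0, 0, 0, 0, 287241, 0, 0, 0, 0, 0, 0⟩ ⟨0, 0, 0, 0, 0, 0, 287241, 0, 0, 0, 0, 0, 0⟩ ⟨101, 2, -512, 18, 16, 109, 251447, 0, 0, 0, 0, 0, 0⟩))
    (.s0
    (.leaf (.box ⟨97, -1, -512, 8, 5, 102, 410569, 0, 0, 0, 0, 0, 0⟩ ⟨0, 0, 0, 0, 0, 0, 353466, 0, 0, 0, 0, 0, 0⟩ ⟨0, 0, 0, 0, 0, 0, 353466, 0, 0, 0, 0, 0, 0⟩ ⟨0, 0, 0, 0, 0, 0, 310307, 0, 0, 0, 0, 0, 0⟩ ⟨0, 0, 0, 0, 0, 0, 310307, 0, 0, 0, 0, 0, 0⟩ ⟨65, -1, -512, 11, 7, 102, 276540, 0, 0, 0, 0, 0, 0⟩))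
    (.s1
    (.leaf (.box ⟨122, 0, -512, 8, 2, 127, 605931, 0, 0, 0, 0, 0, 0⟩ ⟨0, 0, 0, 0, 0, 0, 503090, 0, 0, 0, 0, 0, 0⟩ ⟨0, 0, 0, 0, 0, 0, 503090, 0, 0, 0, 0, 0, 0⟩ ⟨0, 0, 0, 0, 0, 0, 430093, 0, 0, 0, 0, 0, 0⟩ ⟨0, 0, 0, 0, 0, 0, 430093, 0, 0, 0, 0, 0, 0⟩ ⟨89, 1, -512, 10, 3, 119, 375595, 0, 0, 0, 0, 0, 0⟩))
    (.leaf (.box ⟨107, -1, -512, 8, 1, 126, 551607, 0, 0, 0, 0, 0, 0⟩ ⟨0, 0, 0, 0, 0, 0, 471557, 0, 0, 0, 0, 0, 0⟩ ⟨0, 0, 0, 0, 0, 0, 471557, 0, 0, 0, 0, 0, 0⟩ ⟨0, 0, 0, 0, 0, 0, 411796, 0, 0, 0, 0, 0, 0⟩ ⟨0, 0, 0, 0, 0, 0, 411796, 0, 0, 0, 0, 0, 0⟩ ⟨67, -1, -512, 9, 2, 116, 365478, 0, 0, 0, 0, 0, 0⟩))))))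
    (.s2
    (.s0
    (.leaf (.box ⟨194, -4, -694, 6, 8, 116, 650374, 0, 0, 0, 0, 0, 0⟩ ⟨120, -6, -512, 11, 19, 91, 210738, 0, 0, 0, 0, 0, 0⟩ ⟨120, -6, -512, 11, 19, 91, 210738, 0, 0, 0, 0, 0, 0⟩ ⟨107, -6, -512, 12, 20, 98, 205441, 0, 0, 0, 0, 0, 0⟩ ⟨107, -6, -512, 12, 20, 98, 205441, 0, 0, 0, 0, 0, 0⟩ ⟨97, -4, -512, 8, 12, 106, 351137, 0, 0, 0, 0, 0, 0⟩))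
    (.leaf (.box ⟨151, -3, -512, 14, 10, 114, 380875, 0, 0, 0, 0, 0, 0⟩ ⟨0, 0, 0, 0, 0, 0, 327634, 0, 0, 0, 0, 0, 0⟩ ⟨0, 0, 0, 0, 0, 0, 327634, 0, 0, 0, 0, 0, 0⟩ ⟨0, 0, 0, 0, 0, 0, 287451, 0, 0, 0, 0, 0, 0⟩ ⟨0, 0, 0, 0, 0, 0, 287451, 0, 0, 0, 0, 0, 0⟩ ⟨100, -4, -512, 16, 14, 117, 256048, 0, 0, 0, 0, 0, 0⟩)))
    (.s1
    (.s0
    (.leaf (.box ⟨107, -8, -512, 11, 12, 79, 238146, 0, 0, 0, 0, 0, 0⟩ ⟨0, 0, 0, 0, 0, 0, 214510, 0, 0, 0, 0, 0, 0⟩ ⟨0, 0, 0, 0, 0, 0, 214510, 0, 0, 0, 0, 0, 0⟩ ⟨0, 0, 0, 0, 0, 0, 195141, 0, 0, 0, 0, 0, 0⟩ ⟨0, 0, 0, 0, 0, 0, 195141, 0, 0, 0, 0, 0, 0⟩ ⟨53, -5, -512, 9, 15, 92, 178980, 0, 0, 0, 0, 0, 0⟩))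
    (.leaf (.box ⟨150, -5, -512, 13, 4, 113, 396331, 0, 0, 0, 0, 0, 0⟩ ⟨0, 0, 0, 0, 0, 0, 351439, 0, 0, 0, 0, 0, 0⟩ ⟨0, 0, 0, 0, 0, 0, 351439, 0, 0, 0, 0, 0, 0⟩ ⟨0, 0, 0, 0, 0, 0, 315682, 0, 0, 0, 0, 0, 0⟩ ⟨0, 0, 0, 0, 0, 0, 315682, 0, 0, 0, 0, 0, 0⟩ ⟨71, -5, -512, 14, 7, 109, 286529, 0, 0, 0, 0, 0, 0⟩)))
    (.s0
    (.leaf (.box ⟨133, -13, -512, 12, 15, 78, 237600, 0, 0, 0, 0, 0, 0⟩ ⟨0, 0, 0, 0, 0, 0, 219327, 0, 0, 0, 0, 0, 0⟩ ⟨0, 0, 0, 0, 0, 0, 219327, 0, 0, 0, 0, 0, 0⟩ ⟨0, 0, 0, 0, 0, 0, 203663, 0, 0, 0, 0, 0, 0⟩ ⟨0, 0, 0, 0, 0, 0, 203663, 0, 0, 0, 0, 0, 0⟩ ⟨54, -8, -512, 12, 18, 94, 190087, 0, 0, 0, 0, 0, 0⟩))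
    (.leaf (.box ⟨178, -11, -512, 18, 8, 109, 389931, 0, 0, 0, 0, 0, 0⟩ ⟨0, 0, 0, 0, 0, 0, 354490, 0, 0, 0, 0, 0, 0⟩ ⟨0, 0, 0, 0, 0, 0, 354490, 0, 0, 0, 0, 0, 0⟩ ⟨0, 0, 0, 0, 0, 0, 324955, 0, 0, 0, 0, 0, 0⟩ ⟨0, 0, 0, 0, 0, 0, 324955, 0, 0, 0, 0, 0, 0⟩ ⟨66, -7, -512, 14, 10, 109, 299962, 0, 0, 0, 0, 0, 0⟩)))))

/-- A piece of the tree. -/
noncomputable def tree29 : Tree LeafX :=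
  .s2
    (.s0
    (.leaf (.box ⟨140, 2, -512, 14, 3, 150, 743260, 0, 0, 0, 0, 0, 0⟩ ⟨0, 0, 0, 0, 0, 0, 594456, 0, 0, 0, 0, 0, 0⟩ ⟨0, 0, 0, 0, 0, 0, 594456, 0, 0, 0, 0, 0, 0⟩ ⟨0, 0, 0, 0, 0, 0, 495296, 0, 0, 0, 0, 0, 0⟩ ⟨0, 0, 0, 0, 0, 0, 495296, 0, 0, 0, 0, 0, 0⟩ ⟨110, 6, -512, 22, 4, 138, 424487, 0, 0, 0, 0, 0, 0⟩))
    (.leaf (.box ⟨167, 3, -512, 15, -5, 208, 1349143, 0, 0, 0, 0, 0, 28820098839⟩ ⟨0, 0, 0, 0, 0, 0, 1041960, 0, 0, 0, 0, 0, 0⟩ ⟨0, 0, 0, 0, 0, 0, 1041960, 0, 0, 0, 0, 0, 0⟩ ⟨0, 0, 0, 0, 0, 0, 848718, 0, 0, 0, 0, 0, 0⟩ ⟨0, 0, 0, 0, 0, 0, 848718, 0, 0, 0, 0, 0, 0⟩ ⟨157, 9, -512, 24, -11, 176, 715939, 0, 0, 0, 0, 0, 0⟩)))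
    (.s0
    (.s2
    (.s0
    (.leaf (.box ⟨103, 0, -512, 9, -1, 151, 756646, 0, 0, 0, 0, 0, 0⟩ ⟨0, 0, 0, 0, 0, 0, 633283, 0, 0, 0, 0, 0, 0⟩ ⟨0, 0, 0, 0, 0, 0, 633283, 0, 0, 0, 0, 0, 0⟩ ⟨0, 0, 0, 0, 0, 0, 544507, 0, 0, 0, 0, 0, 0⟩ ⟨0, 0, 0, 0, 0, 0, 544507, 0, 0, 0, 0, 0, 0⟩ ⟨90, 1, -512, 12, -2, 134, 477560, 0, 0, 0, 0, 0, 0⟩))
    (.s1
    (.leaf (.box ⟨116, 1, -512, 7, -4, 186, 1145294, 0, 0, 0, 0, 0, 0⟩ ⟨0, 0, 0, 0, 0, 0, 917397, 0, 0, 0, 0, 0, 0⟩ ⟨0, 0, 0, 0, 0, 0, 917397, 0, 0, 0, 0, 0, 0⟩ ⟨0, 0, 0, 0, 0, 0, 765144, 0, 0, 0, 0, 0, 0⟩ ⟨0, 0, 0, 0, 0, 0, 765144, 0, 0, 0, 0, 0, 0⟩ ⟨104, 3, -512, 11, -7, 161, 656234, 0, 0, 0, 0, 0, 0⟩))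
    (.leaf (.box ⟨113, 0, -512, 8, -6, 186, 1024538, 0, 0, 0, 0, 0, 0⟩ ⟨0, 0, 0, 0, 0, 0, 848146, 0, 0, 0, 0, 0, 0⟩ ⟨0, 0, 0, 0, 0, 0, 848146, 0, 0, 0, 0, 0, 0⟩ ⟨0, 0, 0, 0, 0, 0, 723570, 0, 0, 0, 0, 0, 0⟩ ⟨0, 0, 0, 0, 0, 0, 723570, 0, 0, 0, 0, 0, 0⟩ ⟨82, 0, -512, 10, -9, 154, 630903, 0, 0, 0, 0, 0, 0⟩))))
    (.s1
    (.s0
    (.s2
    (.leaf (.box ⟨104, 0, -512, 7, -2, 165, 867829, 0, 0, 0, 0, 0, 0⟩ ⟨0, 0, 0, 0, 0, 0, 715651, 0, 0, 0, 0, 0, 0⟩ ⟨0, 0, 0, 0, 0, 0, 715651, 0, 0, 0, 0, 0, 0⟩ ⟨0, 0, 0, 0, 0, 0, 608880, 0, 0, 0, 0, 0, 0⟩ ⟨0, 0, 0, 0, 0, 0, 608880, 0, 0, 0, 0, 0, 0⟩ ⟨87, 1, -512, 8, -4, 143, 529832, 0, 0, 0, 0, 0, 0⟩))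
    (.leaf (.box ⟨455, 0, -1906, 6, -4, 666, 3583898, 0, 0, 0, 0, 0, 0⟩ ⟨114, 0, -512, 8, -5, 170, 740086, 0, 0, 0, 0, 0, 0⟩ ⟨114, 0, -512, 8, -5, 170, 740086, 0, 0, 0, 0, 0, 0⟩ ⟨112, 0, -512, 8, -5, 161, 656984, 0, 0, 0, 0, 0, 0⟩ ⟨112, 0, -512, 8, -5, 161, 656984, 0, 0, 0, 0, 0, 0⟩ ⟨134, 0, -661, 6, -4, 194, 1018435, 0, 0, 0, 0, 0, 0⟩)))
    (.s2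
    (.s3
    (.s0
    (.leaf (.box ⟨94, 1, -674, 6, -8, 266, 1180530, 0, 0, 0, 0, 0, 0⟩ ⟨0, 0, 0, 0, 0, 0, 952753, 0, 0, 0, 0, 0, 0⟩ ⟨0, 0, 0, 0, 0, 0, 952753, 0, 0, 0, 0, 0, 0⟩ ⟨0, 0, 0, 0, 0, 0, 798656, 0, 0, 0, 0, 0, 0⟩ ⟨0, 0, 0, 0, 0, 0, 798656, 0, 0, 0, 0, 0, 0⟩ ⟨79, 1, -528, 6, -9, 172, 687466, 0, 0, 0, 0, 0, 0⟩))
    (.s1
    (.leaf (.box ⟨423, 1, -2683, 6, -8, 1223, 6461054, 0, 0, 0, 0, 0, 215283686077⟩ ⟨105, 1, -669, 6, -11, 290, 1132991, 0, 0, 0, 0, 0, 0⟩ ⟨105, 1, -669, 6, -11, 290, 1132991, 0, 0, 0, 0, 0, 0⟩ ⟨98, 1, -616, 6, -12, 250, 936884, 0, 0, 0, 0, 0, 0⟩ ⟨98, 1, -616, 6, -12, 250, 936884, 0, 0, 0, 0, 0, 0⟩ ⟨148, 1, -947, 6, -12, 356, 1387232, 0, 0, 0, 0, 0, 0⟩))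
    (.leaf (.box ⟨126, 1, -813, 6, -14, 368, 1358493, 0, 0, 0, 0, 0, 0⟩ ⟨0, 0, 0, 0, 0, 0, 1094439, 0, 0, 0, 0, 0, 0⟩ ⟨0, 0, 0, 0, 0, 0, 1094439, 0, 0, 0, 0, 0, 0⟩ ⟨0, 0, 0, 0, 0, 0, 916329, 0, 0, 0, 0, 0, 0⟩ ⟨0, 0, 0, 0, 0, 0, 916329, 0, 0, 0, 0, 0, 0⟩ ⟨84, 1, -630, 6, -16, 223, 788076, 0, 0, 0, 0, 0, 0⟩))))
    (.leaf (.box ⟨133, 1, -594, 6, -7, 246, 1312641, 0, 0, 0, 0, 0, 0⟩ ⟨0, 0, 0, 0, 0, 0, 1109256, 0, 0, 0, 0, 0, 0⟩ ⟨0, 0, 0, 0, 0, 0, 1109256, 0, 0, 0, 0, 0, 0⟩ ⟨0, 0, 0, 0, 0, 0, 960441, 0, 0, 0, 0, 0, 0⟩ ⟨0, 0, 0, 0, 0, 0, 960441, 0, 0, 0, 0, 0, 0⟩ ⟨112, 1, -512, 7, -8, 177, 846832, 0, 0, 0, 0, 0, 0⟩)))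
    (.s2
    (.leaf (.box ⟨474, 1, -1894, 6, -8, 877, 4989861, 0, 0, 0, 0, 0, 0⟩ ⟨123, 1, -512, 7, -11, 222, 978606, 0, 0, 0, 0, 0, 0⟩ ⟨123, 1, -512, 7, -11, 222, 978606, 0, 0, 0, 0, 0, 0⟩ ⟨121, 1, -512, 8, -12, 206, 845977, 0, 0, 0, 0, 0, 0⟩ ⟨121, 1, -512, 8, -12, 206, 845977, 0, 0, 0, 0, 0, 0⟩ ⟨141, 1, -599, 6, -9, 221, 1276710, 0, 0, 0, 0, 0, 0⟩))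
    (.leaf (.box ⟨147, 1, -512, 8, -11, 256, 1219853, 0, 0, 0, 0, 0, 0⟩ ⟨0, 0, 0, 0, 0, 0, 993513, 0, 0, 0, 0, 0, 0⟩ ⟨0, 0, 0, 0, 0, 0, 993513, 0, 0, 0, 0, 0, 0⟩ ⟨0, 0, 0, 0, 0, 0, 838021, 0, 0, 0, 0, 0, 0⟩ ⟨0, 0, 0, 0, 0, 0, 838021, 0, 0, 0, 0, 0, 0⟩ ⟨140, 1, -512, 9, -15, 197, 724613, 0, 0, 0, 0, 0, 0⟩)))))
    (.leaf (.box ⟨212, -1, -512, 15, -9, 193, 817983, 0, 0, 0, 0, 0, 0⟩ ⟨0, 0, 0, 0, 0, 0, 694121, 0, 0, 0, 0, 0, 0⟩ ⟨0, 0, 0, 0, 0, 0, 694121, 0, 0, 0, 0, 0, 0⟩ ⟨0, 0, 0, 0, 0, 0, 602837, 0, 0, 0, 0, 0, 0⟩ ⟨0, 0, 0, 0, 0, 0, 602837, 0, 0, 0, 0, 0, 0⟩ ⟨160, -1, -512, 17, -10, 152, 532771, 0, 0, 0, 0, 0, 0⟩))))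
    (.s0
    (.s2
    (.s1
    (.leaf (.box ⟨143, 2, -512, 9, -8, 234, 1545097, 0, 0, 0, 0, 0, 25339256725⟩ ⟨0, 0, 0, 0, 0, 0, 1217518, 0, 0, 0, 0, 0, 0⟩ ⟨0, 0, 0, 0, 0, 0, 1217518, 0, 0, 0, 0, 0, 0⟩ ⟨0, 0, 0, 0, 0, 0, 1004542, 0, 0, 0, 0, 0, 0⟩ ⟨0, 0, 0, 0, 0, 0, 1004542, 0, 0, 0, 0, 0, 0⟩ ⟨137, 3, -512, 12, -13, 194, 854983, 0, 0, 0, 0, 0, 0⟩))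
    (.leaf (.box ⟨133, 1, -512, 8, -11, 233, 1382539, 0, 0, 0, 0, 0, 0⟩ ⟨0, 0, 0, 0, 0, 0, 1126113, 0, 0, 0, 0, 0, 0⟩ ⟨0, 0, 0, 0, 0, 0, 1126113, 0, 0, 0, 0, 0, 0⟩ ⟨0, 0, 0, 0, 0, 0, 949926, 0, 0, 0, 0, 0, 0⟩ ⟨0, 0, 0, 0, 0, 0, 949926, 0, 0, 0, 0, 0, 0⟩ ⟨108, 1, -512, 10, -15, 181, 821411, 0, 0, 0, 0, 0, 0⟩)))
    (.s0
    (.s2
    (.leaf (.box ⟨279, 0, -1320, 6, -8, 677, 5806568, 0, 0, 0, 0, 0, 55136178345⟩ ⟨118, 1, -512, 9, -14, 242, 1208577, 0, 0, 0, 0, 0, 0⟩ ⟨118, 1, -512, 9, -14, 242, 1208577, 0, 0, 0, 0, 0, 0⟩ ⟨128, 1, -512, 9, -15, 221, 1054302, 0, 0, 0, 0, 0, 0⟩ ⟨128, 1, -512, 9, -15, 221, 1054302, 0, 0, 0, 0, 0, 0⟩ ⟨158, 1, -596, 6, -11, 232, 1557923, 0, 0, 0, 0, 0, 0⟩))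
    (.leaf (.box ⟨164, 0, -512, 10, -16, 312, 1558783, 0, 0, 0, 0, 0, 0⟩ ⟨0, 0, 0, 0, 0, 0, 1259124, 0, 0, 0, 0, 0, 0⟩ ⟨0, 0, 0, 0, 0, 0, 1259124, 0, 0, 0, 0, 0, 0⟩ ⟨0, 0, 0, 0, 0, 0, 1056100, 0, 0, 0, 0, 0, 0⟩ ⟨0, 0, 0, 0, 0, 0, 1056100, 0, 0, 0, 0, 0, 0⟩ ⟨188, 1, -512, 10, -20, 219, 909457, 0, 0, 0, 0, 0, 0⟩)))
    (.leaf (.box ⟨234, 1, -512, 12, -19, 342, 1713424, 0, 0, 0, 0, 0, 50842275695⟩ ⟨0, 0, 0, 0, 0, 0, 1378287, 0, 0, 0, 0, 0, 0⟩ ⟨0, 0, 0, 0, 0, 0, 1378287, 0, 0, 0, 0, 0, 0⟩ ⟨0, 0, 0, 0, 0, 0, 1152805, 0, 0, 0, 0, 0, 0⟩ ⟨0, 0, 0, 0, 0, 0, 1152805, 0, 0, 0, 0, 0, 0⟩ ⟨252, 2, -512, 14, -24, 239, 990725, 0, 0, 0, 0, 0, 0⟩))))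
    (.leaf (.box ⟨439, 3, -512, 20, -22, 364, 1849971, 0, 0, 0, 0, 0, 350245591573⟩ ⟨0, 0, 0, 0, 0, 0, 1478128, 0, 0, 0, 0, 0, 0⟩ ⟨0, 0, 0, 0, 0, 0, 1478128, 0, 0, 0, 0, 0, 0⟩ ⟨0, 0, 0, 0, 0, 0, 1230747, 0, 0, 0, 0, 0, 0⟩ ⟨0, 0, 0, 0, 0, 0, 1230747, 0, 0, 0, 0, 0, 0⟩ ⟨433, 6, -512, 28, -30, 261, 1054299, 0, 0, 0, 0, 0, 0⟩))))

/-- A piece of the tree. -/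
noncomputable def tree30 : Tree LeafX :=
  .s0
    (.leaf (.box ⟨209, -4, -512, 22, -2, 161, 661249, 0, 0, 0, 0, 0, 0⟩ ⟨0, 0, 0, 0, 0, 0, 551485, 0, 0, 0, 0, 0, 0⟩ ⟨0, 0, 0, 0, 0, 0, 551485, 0, 0, 0, 0, 0, 0⟩ ⟨0, 0, 0, 0, 0, 0, 472973, 0, 0, 0, 0, 0, 0⟩ ⟨0, 0, 0, 0, 0, 0, 472973, 0, 0, 0, 0, 0, 0⟩ ⟨137, -5, -512, 27, -2, 138, 414030, 0, 0, 0, 0, 0, 0⟩))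
    (.leaf (.box ⟨369, -1, -512, 30, -14, 238, 1180898, 0, 0, 0, 0, 0, 0⟩ ⟨0, 0, 0, 0, 0, 0, 952483, 0, 0, 0, 0, 0, 0⟩ ⟨0, 0, 0, 0, 0, 0, 952483, 0, 0, 0, 0, 0, 0⟩ ⟨0, 0, 0, 0, 0, 0, 798109, 0, 0, 0, 0, 0, 0⟩ ⟨0, 0, 0, 0, 0, 0, 798109, 0, 0, 0, 0, 0, 0⟩ ⟨250, -1, -512, 34, -18, 178, 686796, 0, 0, 0, 0, 0, 0⟩))

/-- A piece of the tree. -/
noncomputable def tree31 : Tree LeafX :=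
  .s2
    (.s0
    (.s1
    (.leaf (.box ⟨164, -1, -512, 7, 6, 82, 283008, 0, 0, 0, 0, 0, 0⟩ ⟨0, 0, 0, 0, 0, 0, 244199, 0, 0, 0, 0, 0, 0⟩ ⟨0, 0, 0, 0, 0, 0, 244199, 0, 0, 0, 0, 0, 0⟩ ⟨0, 0, 0, 0, 0, 0, 214749, 0, 0, 0, 0, 0, 0⟩ ⟨0, 0, 0, 0, 0, 0, 214749, 0, 0, 0, 0, 0, 0⟩ ⟨94, -1, -512, 9, 9, 87, 191638, 0, 0, 0, 0, 0, 0⟩))
    (.s0
    (.leaf (.box ⟨63, -3, -528, 6, 8, 74, 277472, 0, 0, 0, 0, 865147033, 0⟩ ⟨0, 0, 0, 0, 0, 0, 244235, 0, 0, 0, 0, 0, 0⟩ ⟨0, 0, 0, 0, 0, 0, 244235, 0, 0, 0, 0, 0, 0⟩ ⟨0, 0, 0, 0, 0, 0, 218109, 0, 0, 0, 0, 0, 0⟩ ⟨0, 0, 0, 0, 0, 0, 218109, 0, 0, 0, 0, 0, 0⟩ ⟨40, -3, -512, 8, 11, 83, 197032, 0, 0, 0, 0, 0, 0⟩))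
    (.s3
    (.s1
    (.leaf (.box ⟨119, -2, -925, 6, 9, 157, 371391, 15374382, 0, 0, 0, 0, 0⟩ ⟨0, 0, 0, 0, 0, 0, 323569, 0, 0, 0, 0, 0, 0⟩ ⟨0, 0, 0, 0, 0, 0, 323569, 0, 0, 0, 0, 0, 0⟩ ⟨0, 0, 0, 0, 0, 0, 286657, 0, 0, 0, 0, 0, 0⟩ ⟨0, 0, 0, 0, 0, 0, 286657, 0, 0, 0, 0, 0, 0⟩ ⟨47, -2, -650, 6, 9, 116, 257304, 0, 0, 0, 0, 0, 0⟩))
    (.s2
    (.leaf (.box ⟨111, -3, -930, 6, 10, 154, 368748, 0, 0, 0, 0, 0, 0⟩ ⟨0, 0, 0, 0, 0, 0, 325670, 0, 0, 0, 0, 0, 0⟩ ⟨0, 0, 0, 0, 0, 0, 325670, 0, 0, 0, 0, 0, 0⟩ ⟨0, 0, 0, 0, 0, 0, 291604, 0, 0, 0, 0, 0, 0⟩ ⟨0, 0, 0, 0, 0, 0, 291604, 0, 0, 0, 0, 0, 0⟩ ⟨56, -2, -909, 6, 13, 163, 263989, 0, 0, 0, 0, 0, 0⟩))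
    (.leaf (.box ⟨135, -2, -1062, 6, 12, 175, 422772, 0, 0, 0, 0, 7085706123, 0⟩ ⟨0, 0, 0, 0, 0, 0, 371235, 0, 0, 0, 0, 0, 0⟩ ⟨0, 0, 0, 0, 0, 0, 371235, 0, 0, 0, 0, 0, 0⟩ ⟨0, 0, 0, 0, 0, 0, 330898, 0, 0, 0, 0, 0, 0⟩ ⟨0, 0, 0, 0, 0, 0, 330898, 0, 0, 0, 0, 0, 0⟩ ⟨48, -2, -788, 6, 12, 140, 298467, 0, 0, 0, 0, 0, 0⟩))))
    (.s0
    (.leaf (.box ⟨66, -2, -757, 6, 9, 119, 416420, 0, 0, 0, 0, 2033131924, 0⟩ ⟨0, 0, 0, 0, 0, 0, 376080, 0, 0, 0, 0, 0, 0⟩ ⟨0, 0, 0, 0, 0, 0, 376080, 0, 0, 0, 0, 0, 0⟩ ⟨0, 0, 0, 0, 0, 0, 342865, 0, 0, 0, 0, 0, 0⟩ ⟨0, 0, 0, 0, 0, 0, 342865, 0, 0, 0, 0, 0, 0⟩ ⟨28, -2, -597, 6, 10, 103, 315041, 0, 0, 0, 0, 0, 0⟩))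
    (.leaf (.box ⟨68, -2, -667, 6, 7, 116, 483318, 0, 0, 0, 0, 1775573669, 0⟩ ⟨0, 0, 0, 0, 0, 0, 434944, 0, 0, 0, 0, 0, 0⟩ ⟨0, 0, 0, 0, 0, 0, 434944, 0, 0, 0, 0, 0, 0⟩ ⟨0, 0, 0, 0, 0, 0, 395371, 0, 0, 0, 0, 0, 0⟩ ⟨0, 0, 0, 0, 0, 0, 395371, 0, 0, 0, 0, 0, 0⟩ ⟨30, -2, -610, 6, 9, 112, 362399, 0, 0, 0, 0, 0, 0⟩))))))
    (.s0
    (.s1
    (.s2
    (.leaf (.box ⟨118, -1, -560, 6, 2, 122, 509478, 0, 0, 0, 0, 0, 0⟩ ⟨0, 0, 0, 0, 0, 0, 432933, 0, 0, 0, 0, 0, 0⟩ ⟨0, 0, 0, 0, 0, 0, 432933, 0, 0, 0, 0, 0, 0⟩ ⟨0, 0, 0, 0, 0, 0, 376384, 0, 0, 0, 0, 0, 0⟩ ⟨0, 0, 0, 0, 0, 0, 376384, 0, 0, 0, 0, 0, 0⟩ ⟨71, -1, -512, 7, 3, 106, 332900, 0, 0, 0, 0, 0, 0⟩))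
    (.leaf (.box ⟨158, -1, -559, 6, 1, 131, 561802, 0, 0, 44118912, 0, 0, 0⟩ ⟨0, 0, 0, 0, 0, 0, 475885, 0, 0, 0, 0, 0, 0⟩ ⟨0, 0, 0, 0, 0, 0, 475885, 0, 0, 0, 0, 0, 0⟩ ⟨0, 0, 0, 0, 0, 0, 412761, 0, 0, 0, 0, 0, 0⟩ ⟨0, 0, 0, 0, 0, 0, 412761, 0, 0, 0, 0, 0, 0⟩ ⟨98, -1, -512, 7, 2, 109, 364422, 0, 0, 0, 0, 0, 0⟩)))
    (.s2
    (.leaf (.box ⟨97, -2, -547, 6, 3, 113, 498362, 0, 0, 0, 0, 0, 0⟩ ⟨0, 0, 0, 0, 0, 0, 432684, 0, 0, 0, 0, 0, 0⟩ ⟨0, 0, 0, 0, 0, 0, 432684, 0, 0, 0, 0, 0, 0⟩ ⟨0, 0, 0, 0, 0, 0, 382301, 0, 0, 0, 0, 0, 0⟩ ⟨0, 0, 0, 0, 0, 0, 382301, 0, 0, 0, 0, 0, 0⟩ ⟨54, -2, -512, 7, 5, 103, 342427, 0, 0, 0, 0, 0, 0⟩))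
    (.leaf (.box ⟨102, -2, -512, 7, 4, 107, 560270, 0, 0, 0, 0, 1760160035, 0⟩ ⟨0, 0, 0, 0, 0, 0, 485072, 0, 0, 0, 0, 0, 0⟩ ⟨0, 0, 0, 0, 0, 0, 485072, 0, 0, 0, 0, 0, 0⟩ ⟨0, 0, 0, 0, 0, 0, 427670, 0, 0, 0, 0, 0, 0⟩ ⟨0, 0, 0, 0, 0, 0, 427670, 0, 0, 0, 0, 0, 0⟩ ⟨64, -2, -512, 8, 5, 104, 382416, 0, 0, 0, 0, 0, 0⟩))))
    (.s2
    (.leaf (.box ⟨441, -1, -1384, 6, -1, 386, 2391383, 0, 0, 0, 0, 0, 0⟩ ⟨157, -1, -512, 9, -1, 136, 576272, 0, 0, 0, 0, 0, 0⟩ ⟨157, -1, -512, 9, -1, 136, 576272, 0, 0, 0, 0, 0, 0⟩ ⟨141, -1, -512, 9, -1, 130, 523317, 0, 0, 0, 0, 0, 0⟩ ⟨141, -1, -512, 9, -1, 130, 523317, 0, 0, 0, 0, 0, 0⟩ ⟨145, -1, -570, 6, -1, 138, 839979, 0, 0, 0, 0, 0, 0⟩))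
    (.leaf (.box ⟨285, -2, -512, 12, -2, 156, 748164, 0, 0, 0, 0, 0, 0⟩ ⟨0, 0, 0, 0, 0, 0, 628607, 0, 0, 0, 0, 0, 0⟩ ⟨0, 0, 0, 0, 0, 0, 628607, 0, 0, 0, 0, 0, 0⟩ ⟨0, 0, 0, 0, 0, 0, 541995, 0, 0, 0, 0, 0, 0⟩ ⟨0, 0, 0, 0, 0, 0, 541995, 0, 0, 0, 0, 0, 0⟩ ⟨189, -2, -512, 14, -2, 129, 476360, 0, 0, 0, 0, 0, 0⟩)))))
    (.s2
    (.s0
    (.s1
    (.leaf (.box ⟨155, -1, -512, 7, 5, 85, 344620, 0, 0, 0, 0, 1271323040, 0⟩ ⟨0, 0, 0, 0, 0, 0, 293321, 0, 0, 0, 0, 0, 0⟩ ⟨0, 0, 0, 0, 0, 0, 293321, 0, 0, 0, 0, 0, 0⟩ ⟨0, 0, 0, 0, 0, 0, 255316, 0, 0, 0, 0, 0, 0⟩ ⟨0, 0, 0, 0, 0, 0, 255316, 0, 0, 0, 0, 0, 0⟩ ⟨99, -1, -512, 8, 7, 87, 226029, 0, 0, 0, 0, 0, 0⟩))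
    (.leaf (.box ⟨107, -2, -512, 7, 8, 79, 350948, 0, 0, 0, 0, 2504496324, 0⟩ ⟨0, 0, 0, 0, 0, 0, 304137, 0, 0, 0, 0, 0, 0⟩ ⟨0, 0, 0, 0, 0, 0, 304137, 0, 0, 0, 0, 0, 0⟩ ⟨0, 0, 0, 0, 0, 0, 268343, 0, 0, 0, 0, 0, 0⟩ ⟨0, 0, 0, 0, 0, 0, 268343, 0, 0, 0, 0, 0, 0⟩ ⟨75, -2, -512, 11, 12, 87, 240087, 0, 0, 0, 0, 411589246, 0⟩)))
    (.leaf (.box ⟨480, -4, -512, 23, 1, 140, 609657, 0, 0, 0, 0, 22075730223, 0⟩ ⟨0, 0, 0, 0, 0, 0, 516784, 0, 0, 0, 0, 0, 0⟩ ⟨0, 0, 0, 0, 0, 0, 516784, 0, 0, 0, 0, 0, 0⟩ ⟨0, 0, 0, 0, 0, 0, 448466, 0, 0, 0, 0, 0, 0⟩ ⟨0, 0, 0, 0, 0, 0, 448466, 0, 0, 0, 0, 0, 0⟩ ⟨287, -4, -512, 25, 2, 122, 396101, 0, 0, 0, 0, 4421025653, 0⟩)))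
    (.leaf (.skip 8 0)))

/-- A piece of the tree. -/
noncomputable def tree32 : Tree LeafX :=
  .s2
    (.s2
    (.s0
    (.leaf (.box ⟨109, -11, -512, 13, 12, 75, 277286, 0, 0, 0, 0, 0, 0⟩ ⟨0, 0, 0, 0, 0, 0, 250233, 0, 0, 0, 0, 0, 0⟩ ⟨0, 0, 0, 0, 0, 0, 250233, 0, 0, 0, 0, 0, 0⟩ ⟨0, 0, 0, 0, 0, 0, 227989, 0, 0, 0, 0, 0, 0⟩ ⟨0, 0, 0, 0, 0, 0, 227989, 0, 0, 0, 0, 0, 0⟩ ⟨54, -7, -512, 15, 15, 90, 209377, 0, 0, 0, 0, 0, 0⟩))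
    (.leaf (.box ⟨180, -9, -512, 17, 7, 106, 497664, 0, 0, 0, 0, 1672643591, 0⟩ ⟨0, 0, 0, 0, 0, 0, 442742, 0, 0, 0, 0, 0, 0⟩ ⟨0, 0, 0, 0, 0, 0, 442742, 0, 0, 0, 0, 0, 0⟩ ⟨0, 0, 0, 0, 0, 0, 398738, 0, 0, 0, 0, 0, 0⟩ ⟨0, 0, 0, 0, 0, 0, 398738, 0, 0, 0, 0, 0, 0⟩ ⟨90, -6, -512, 16, 9, 107, 362689, 0, 0, 0, 0, 0, 0⟩)))
    (.s0
    (.leaf (.box ⟨101, -8, -512, 13, 12, 74, 317564, 0, 0, 0, 0, 1557787877, 0⟩ ⟨0, 0, 0, 0, 0, 0, 283870, 0, 0, 0, 0, 0, 0⟩ ⟨0, 0, 0, 0, 0, 0, 283870, 0, 0, 0, 0, 0, 0⟩ ⟨0, 0, 0, 0, 0, 0, 256640, 0, 0, 0, 0, 0, 0⟩ ⟨0, 0, 0, 0, 0, 0, 256640, 0, 0, 0, 0, 0, 0⟩ ⟨65, -6, -512, 16, 15, 90, 234176, 0, 0, 0, 0, 397675628, 0⟩))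
    (.leaf (.box ⟨166, -7, -512, 15, 8, 102, 583734, 0, 0, 0, 0, 3997783335, 0⟩ ⟨0, 0, 0, 0, 0, 0, 516560, 0, 0, 0, 0, 0, 0⟩ ⟨0, 0, 0, 0, 0, 0, 516560, 0, 0, 0, 0, 0, 0⟩ ⟨0, 0, 0, 0, 0, 0, 463251, 0, 0, 0, 0, 0, 0⟩ ⟨0, 0, 0, 0, 0, 0, 463251, 0, 0, 0, 0, 0, 0⟩ ⟨95, -6, -512, 18, 11, 108, 419915, 0, 0, 0, 0, 0, 0⟩))))
    (.leaf (.skip 8 0))

/-- A piece of the tree. -/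
noncomputable def tree33 : Tree LeafX :=
  .s1
    (.s2
    (.s0
    (.s2
    (.s0
    (.s1
    (.leaf (.box ⟨227, 0, -512, 8, -7, 212, 929838, 0, 0, 0, 0, 0, 0⟩ ⟨0, 0, 0, 0, 0, 0, 769555, 0, 0, 0, 0, 0, 0⟩ ⟨0, 0, 0, 0, 0, 0, 769555, 0, 0, 0, 0, 0, 0⟩ ⟨0, 0, 0, 0, 0, 0, 656405, 0, 0, 0, 0, 0, 0⟩ ⟨0, 0, 0, 0, 0, 0, 656405, 0, 0, 0, 0, 0, 0⟩ ⟨186, 0, -512, 10, -9, 164, 572263, 0, 0, 0, 0, 0, 0⟩))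
    (.leaf (.box ⟨175, -1, -512, 8, -6, 186, 904226, 0, 0, 0, 0, 0, 0⟩ ⟨0, 0, 0, 0, 0, 0, 768946, 0, 0, 0, 0, 0, 0⟩ ⟨0, 0, 0, 0, 0, 0, 768946, 0, 0, 0, 0, 0, 0⟩ ⟨0, 0, 0, 0, 0, 0, 668877, 0, 0, 0, 0, 0, 0⟩ ⟨0, 0, 0, 0, 0, 0, 668877, 0, 0, 0, 0, 0, 0⟩ ⟨123, -1, -512, 10, -6, 145, 591853, 0, 0, 0, 0, 0, 0⟩)))
    (.leaf (.box ⟨417, 0, -512, 15, -17, 305, 1226618, 0, 0, 0, 0, 0, 0⟩ ⟨0, 0, 0, 0, 0, 0, 1004433, 0, 0, 0, 0, 0, 0⟩ ⟨0, 0, 0, 0, 0, 0, 1004433, 0, 0, 0, 0, 0, 0⟩ ⟨0, 0, 0, 0, 0, 0, 850395, 0, 0, 0, 0, 0, 0⟩ ⟨0, 0, 0, 0, 0, 0, 850395, 0, 0, 0, 0, 0, 0⟩ ⟨340, 0, -512, 18, -18, 202, 737321, 0, 0, 0, 0, 0, 0⟩)))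
    (.leaf (.box ⟨512, -2, -251, 24, -11, 174, 985655, 0, 0, 0, 0, 0, 0⟩ ⟨0, 0, 0, 0, 0, 0, 819450, 0, 0, 0, 0, 0, 0⟩ ⟨0, 0, 0, 0, 0, 0, 819450, 0, 0, 0, 0, 0, 0⟩ ⟨0, 0, 0, 0, 0, 0, 701209, 0, 0, 0, 0, 0, 0⟩ ⟨0, 0, 0, 0, 0, 0, 701209, 0, 0, 0, 0, 0, 0⟩ ⟨512, -3, -421, 37, -16, 168, 612787, 0, 0, 0, 0, 0, 0⟩)))
    (.s2
    (.leaf (.box ⟨512, 1, -119, 21, -23, 262, 1614269, 0, 0, 0, 0, 0, 0⟩ ⟨0, 0, 0, 0, 0, 0, 1300647, 0, 0, 0, 0, 0, 0⟩ ⟨0, 0, 0, 0, 0, 0, 1300647, 0, 0, 0, 0, 0, 0⟩ ⟨0, 0, 0, 0, 0, 0, 1089063, 0, 0, 0, 0, 0, 0⟩ ⟨0, 0, 0, 0, 0, 0, 1089063, 0, 0, 0, 0, 0, 0⟩ ⟨512, 2, -235, 32, -29, 185, 936686, 0, 0, 0, 0, 0, 0⟩))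
    (.leaf (.box ⟨512, 0, 97, 18, -15, 137, 1635501, 0, 0, 0, 0, 0, 0⟩ ⟨0, 0, 0, 0, 0, 0, 1326952, 0, 0, 0, 0, 0, 0⟩ ⟨0, 0, 0, 0, 0, 0, 1326952, 0, 0, 0, 0, 0, 0⟩ ⟨0, 0, 0, 0, 0, 0, 1116346, 0, 0, 0, 0, 0, 0⟩ ⟨0, 0, 0, 0, 0, 0, 1116346, 0, 0, 0, 0, 0, 0⟩ ⟨512, 0, -45, 27, -19, 105, 963434, 0, 0, 0, 0, 0, 0⟩))))
    (.leaf (.skip 8 0)))
    (.s0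
    (.leaf (.box ⟨403, -13, -512, 44, 5, 158, 898883, 0, 0, 0, 0, 41990430267, 0⟩ ⟨0, 0, 0, 0, 0, 0, 784492, 0, 0, 0, 0, 0, 0⟩ ⟨0, 0, 0, 0, 0, 0, 784492, 0, 0, 0, 0, 0, 0⟩ ⟨0, 0, 0, 0, 0, 0, 695928, 0, 0, 0, 0, 0, 0⟩ ⟨0, 0, 0, 0, 0, 0, 695928, 0, 0, 0, 0, 0, 0⟩ ⟨262, -12, -512, 51, 8, 144, 625332, 0, 0, 0, 0, 0, 0⟩))
    (.leaf (.skip 8 0)))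

theorem parts1 :
    (runPathS conQ supQ (fun n Qs i d x => leafR conQ seg n Qs i d x) [.d0 true, .d1 false, .d2 true, .d0 true, .d1 true, .d2 true] tree27 0 0 0
      (joinS (lay.B * lay.size) rootQ) = true) ∧
    (runPathS conQ supQ (fun n Qs i d x => leafR conQ seg n Qs i d x) [.d0 true, .d1 true, .d2 false, .d0 false] tree28 0 0 0
      (joinS (lay.B * lay.size) rootQ) = true) ∧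
    (runPathS conQ supQ (fun n Qs i d x => leafR conQ seg n Qs i d x) [.d0 true, .d1 true, .d2 false, .d0 true, .d1 false] tree29 0 0 0
      (joinS (lay.B * lay.size) rootQ) = true) ∧
    (runPathS conQ supQ (fun n Qs i d x => leafR conQ seg n Qs i d x) [.d0 true, .d1 true, .d2 false, .d0 true, .d1 true] tree30 0 0 0
      (joinS (lay.B * lay.size) rootQ) = true) ∧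
    (runPathS conQ supQ (fun n Qs i d x => leafR conQ seg n Qs i d x) [.d0 true, .d1 true, .d2 true, .d0 false, .d1 false] tree31 0 0 0
      (joinS (lay.B * lay.size) rootQ) = true) ∧
    (runPathS conQ supQ (fun n Qs i d x => leafR conQ seg n Qs i d x) [.d0 true, .d1 true, .d2 true, .d0 false, .d1 true] tree32 0 0 0
      (joinS (lay.B * lay.size) rootQ) = true) ∧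
    (runPathS conQ supQ (fun n Qs i d x => leafR conQ seg n Qs i d x) [.d0 true, .d1 true, .d2 true, .d0 true] tree33 0 0 0
      (joinS (lay.B * lay.size) rootQ) = true) :=
  ⟨by decide +kernel,
  by decide +kernel,
  by decide +kernel,
  by decide +kernel,
  by decide +kernel,
  by decide +kernel,
  by decide +kernel⟩

end Vale.Agent.P098.Six.S14
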