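import Vale.Agent.P098.Six.S14.Root

/-!
# P098, six dimensions: checked pieces of the tree
-/

namespace Vale.Agent.P098.Six.S14

/-- A piece of the tree. -/
noncomputable def tree0 : Tree LeafX :=
  .s0
    (.s1
    (.s0
    (.s1
    (.leaf (.box ⟨512, -1, -68, 13, -4, 45, 116492, 0, 0, 0, 0, 0, 0⟩ ⟨0, 0, 0, 0, 0, 0, 96913, 0, 0, 0, 0, 0, 0⟩ ⟨0, 0, 0, 0, 0, 0, 96913, 0, 0, 0, 0, 0, 0⟩ ⟨0, 0, 0, 0, 0, 0, 82968, 0, 0, 0, 0, 0, 0⟩ ⟨0, 0, 0, 0, 0, 0, 82968, 0, 0, 0, 0, 0, 0⟩ ⟨512, -2, -153, 31, -10, 75, 72531, 0, 0, 0, 0, 0, 0⟩))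
    (.s2
    (.leaf (.box ⟨512, 0, 95, 8, -9, 104, 145337, 0, 0, 0, 0, 0, 0⟩ ⟨0, 0, 0, 0, 0, 0, 120007, 0, 0, 0, 0, 0, 0⟩ ⟨0, 0, 0, 0, 0, 0, 120007, 0, 0, 0, 0, 0, 0⟩ ⟨0, 0, 0, 0, 0, 0, 102195, 0, 0, 0, 0, 0, 0⟩ ⟨0, 0, 0, 0, 0, 0, 102195, 0, 0, 0, 0, 0, 0⟩ ⟨512, 1, -117, 21, -26, 184, 88987, 0, 0, 0, 0, 0, 0⟩))
    (.leaf (.box ⟨1906, 0, 604, 6, -9, 310, 513241, 0, 0, 0, 0, 0, 0⟩ ⟨512, 0, 129, 9, -14, 96, 100018, 0, 0, 0, 0, 0, 0⟩ ⟨512, 0, 129, 9, -14, 96, 100018, 0, 0, 0, 0, 0, 0⟩ ⟨512, 0, 81, 12, -18, 108, 87155, 0, 0, 0, 0, 0, 0⟩ ⟨512, 0, 81, 12, -18, 108, 87155, 0, 0, 0, 0, 0, 0⟩ ⟨512, 0, 21, 9, -14, 136, 138899, 0, 0, 0, 0, 0, 0⟩))))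
    (.leaf (.box ⟨512, -1, -463, 28, 4, 47, 130921, 0, 0, 0, 0, 0, 0⟩ ⟨0, 0, 0, 0, 0, 0, 108795, 0, 0, 0, 0, 0, 0⟩ ⟨0, 0, 0, 0, 0, 0, 108795, 0, 0, 0, 0, 0, 0⟩ ⟨0, 0, 0, 0, 0, 0, 93066, 0, 0, 0, 0, 0, 0⟩ ⟨0, 0, 0, 0, 0, 0, 93066, 0, 0, 0, 0, 0, 0⟩ ⟨512, -2, -416, 63, 8, 68, 81310, 0, 0, 0, 0, 0, 0⟩)))
    (.s0
    (.s1
    (.s2
    (.s1
    (.leaf (.box ⟨512, 1, 380, 11, -18, 289, 142916, 0, 0, 0, 0, 0, 0⟩ ⟨0, 0, 0, 0, 0, 0, 117588, 0, 0, 0, 0, 0, 0⟩ ⟨0, 0, 0, 0, 0, 0, 117588, 0, 0, 0, 0, 0, 0⟩ ⟨0, 0, 0, 0, 0, 0, 99885, 0, 0, 0, 0, 0, 0⟩ ⟨0, 0, 0, 0, 0, 0, 99885, 0, 0, 0, 0, 0, 0⟩ ⟨512, 3, 56, 23, -39, 360, 86815, 0, 0, 0, 0, 0, 0⟩))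
    (.leaf (.box ⟨512, 2, 356, 11, -13, 287, 139200, 0, 0, 0, 0, 0, 0⟩ ⟨0, 0, 0, 0, 0, 0, 114534, 0, 0, 0, 0, 0, 0⟩ ⟨0, 0, 0, 0, 0, 0, 114534, 0, 0, 0, 0, 0, 0⟩ ⟨0, 0, 0, 0, 0, 0, 97293, 0, 0, 0, 0, 0, 0⟩ ⟨0, 0, 0, 0, 0, 0, 97293, 0, 0, 0, 0, 0, 0⟩ ⟨512, 4, 224, 22, -28, 370, 84563, 0, 0, 0, 0, 0, 0⟩)))
    (.s0
    (.leaf (.box ⟨273, 1, 512, 8, -12, 148, 117553, 0, 0, 0, 0, 0, 0⟩ ⟨0, 0, 0, 0, 0, 0, 96495, 0, 0, 0, 0, 0, 0⟩ ⟨0, 0, 0, 0, 0, 0, 96495, 0, 0, 0, 0, 0, 0⟩ ⟨0, 0, 0, 0, 0, 0, 81835, 0, 0, 0, 0, 0, 0⟩ ⟨0, 0, 0, 0, 0, 0, 81835, 0, 0, 0, 0, 0, 0⟩ ⟨395, 3, 512, 21, -33, 239, 71041, 0, 0, 0, 0, 0, 0⟩))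
    (.leaf (.box ⟨512, 1, 505, 11, -15, 211, 129771, 0, 0, 0, 0, 0, 0⟩ ⟨0, 0, 0, 0, 0, 0, 107220, 0, 0, 0, 0, 0, 0⟩ ⟨0, 0, 0, 0, 0, 0, 107220, 0, 0, 0, 0, 0, 0⟩ ⟨0, 0, 0, 0, 0, 0, 91346, 0, 0, 0, 0, 0, 0⟩ ⟨0, 0, 0, 0, 0, 0, 91346, 0, 0, 0, 0, 0, 0⟩ ⟨512, 2, 303, 20, -28, 236, 79566, 0, 0, 0, 0, 0, 0⟩))))
    (.s0
    (.s2
    (.leaf (.box ⟨512, 1, 258, 9, -7, 265, 129494, 0, 0, 0, 0, 0, 0⟩ ⟨0, 0, 0, 0, 0, 0, 107912, 0, 0, 0, 0, 0, 0⟩ ⟨0, 0, 0, 0, 0, 0, 107912, 0, 0, 0, 0, 0, 0⟩ ⟨0, 0, 0, 0, 0, 0, 92496, 0, 0, 0, 0, 0, 0⟩ ⟨0, 0, 0, 0, 0, 0, 92496, 0, 0, 0, 0, 0, 0⟩ ⟨509, 3, 512, 20, -15, 375, 80934, 0, 0, 0, 0, 0, 0⟩))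
    (.leaf (.box ⟨376, 1, 512, 9, -4, 156, 113434, 0, 0, 0, 0, 0, 0⟩ ⟨0, 0, 0, 0, 0, 0, 93858, 0, 0, 0, 0, 0, 0⟩ ⟨0, 0, 0, 0, 0, 0, 93858, 0, 0, 0, 0, 0, 0⟩ ⟨0, 0, 0, 0, 0, 0, 80045, 0, 0, 0, 0, 0, 0⟩ ⟨0, 0, 0, 0, 0, 0, 80045, 0, 0, 0, 0, 0, 0⟩ ⟨249, 2, 512, 15, -7, 177, 69775, 0, 0, 0, 0, 0, 0⟩)))
    (.leaf (.box ⟨512, 1, 384, 10, -4, 216, 128787, 0, 0, 0, 0, 0, 0⟩ ⟨0, 0, 0, 0, 0, 0, 106683, 0, 0, 0, 0, 0, 0⟩ ⟨0, 0, 0, 0, 0, 0, 106683, 0, 0, 0, 0, 0, 0⟩ ⟨0, 0, 0, 0, 0, 0, 91055, 0, 0, 0, 0, 0, 0⟩ ⟨0, 0, 0, 0, 0, 0, 91055, 0, 0, 0, 0, 0, 0⟩ ⟨512, 2, 397, 19, -7, 243, 79420, 0, 0, 0, 0, 0, 0⟩))))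
    (.s0
    (.leaf (.box ⟨512, 1, 6, 10, -2, 109, 136749, 0, 0, 0, 0, 0, 0⟩ ⟨0, 0, 0, 0, 0, 0, 113297, 0, 0, 0, 0, 0, 0⟩ ⟨0, 0, 0, 0, 0, 0, 113297, 0, 0, 0, 0, 0, 0⟩ ⟨0, 0, 0, 0, 0, 0, 96711, 0, 0, 0, 0, 0, 0⟩ ⟨0, 0, 0, 0, 0, 0, 96711, 0, 0, 0, 0, 0, 0⟩ ⟨512, 1, -20, 20, -5, 153, 84361, 0, 0, 0, 0, 0, 0⟩))
    (.leaf (.box ⟨512, 0, -261, 10, 1, 76, 141877, 0, 0, 0, 0, 0, 0⟩ ⟨0, 0, 0, 0, 0, 0, 118129, 0, 0, 0, 0, 0, 0⟩ ⟨0, 0, 0, 0, 0, 0, 118129, 0, 0, 0, 0, 0, 0⟩ ⟨0, 0, 0, 0, 0, 0, 101191, 0, 0, 0, 0, 0, 0⟩ ⟨0, 0, 0, 0, 0, 0, 101191, 0, 0, 0, 0, 0, 0⟩ ⟨512, 0, -251, 20, 3, 111, 88501, 0, 0, 0, 0, 0, 0⟩)))))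
    (.s1
    (.s0
    (.leaf (.box ⟨223, 1, -586, 6, 3, 46, 658497, 0, 0, 0, 0, 0, 2753256190⟩ ⟨217, 5, -512, 28, 13, 44, 133155, 0, 0, 0, 0, 0, 0⟩ ⟨217, 5, -512, 28, 13, 44, 133155, 0, 0, 0, 0, 0, 0⟩ ⟨246, 7, -512, 35, 17, 48, 119332, 0, 0, 0, 0, 0, 0⟩ ⟨246, 7, -512, 35, 17, 48, 119332, 0, 0, 0, 0, 0, 0⟩ ⟨265, 6, -512, 28, 12, 56, 195321, 0, 0, 0, 0, 0, 0⟩))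
    (.leaf (.box ⟨242, 2, -649, 6, 5, 67, 967120, 0, 0, 0, 0, 0, 2775134626⟩ ⟨191, 9, -512, 29, 21, 55, 189634, 0, 0, 0, 0, 0, 0⟩ ⟨191, 9, -512, 29, 21, 55, 189634, 0, 0, 0, 0, 0, 0⟩ ⟨196, 15, -512, 38, 25, 58, 166676, 0, 0, 0, 0, 0, 0⟩ ⟨196, 15, -512, 38, 25, 58, 166676, 0, 0, 0, 0, 0, 0⟩ ⟨209, 13, -512, 26, 18, 63, 266620, 0, 0, 0, 0, 0, 0⟩)))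
    (.s0
    (.leaf (.box ⟨409, -1, -512, 17, 6, 56, 148239, 0, 0, 0, 0, 0, 0⟩ ⟨0, 0, 0, 0, 0, 0, 124434, 0, 0, 0, 0, 0, 0⟩ ⟨0, 0, 0, 0, 0, 0, 124434, 0, 0, 0, 0, 0, 0⟩ ⟨0, 0, 0, 0, 0, 0, 107217, 0, 0, 0, 0, 0, 0⟩ ⟨0, 0, 0, 0, 0, 0, 107217, 0, 0, 0, 0, 0, 0⟩ ⟨392, -2, -512, 41, 15, 88, 94184, 0, 0, 0, 0, 0, 0⟩))
    (.leaf (.box ⟨153, 1, -512, 13, 11, 55, 183078, 0, 0, 0, 0, 0, 0⟩ ⟨0, 0, 0, 0, 0, 0, 156104, 0, 0, 0, 0, 0, 0⟩ ⟨0, 0, 0, 0, 0, 0, 156104, 0, 0, 0, 0, 0, 0⟩ ⟨0, 0, 0, 0, 0, 0, 136058, 0, 0, 0, 0, 0, 0⟩ ⟨0, 0, 0, 0, 0, 0, 136058, 0, 0, 0, 0, 0, 0⟩ ⟨178, 2, -512, 30, 21, 70, 120574, 0, 0, 0, 0, 0, 0⟩))))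

/-- A piece of the tree. -/
noncomputable def tree1 : Tree LeafX :=
  .s2
    (.s2
    (.s3
    (.s2
    (.s2
    (.s1
    (.leaf (.box ⟨512, -1, -314, 18, -1, 40, 116056, 0, 0, 0, 0, 0, 0⟩ ⟨0, 0, 0, 0, 0, 0, 95843, 0, 0, 0, 0, 0, 0⟩ ⟨0, 0, 0, 0, 0, 0, 95843, 0, 0, 0, 0, 0, 0⟩ ⟨0, 0, 0, 0, 0, 0, 81626, 0, 0, 0, 0, 0, 0⟩ ⟨0, 0, 0, 0, 0, 0, 81626, 0, 0, 0, 0, 0, 0⟩ ⟨512, -2, -400, 46, -2, 71, 71081, 0, 0, 0, 0, 0, 0⟩))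
    (.s0
    (.leaf (.box ⟨688, 0, 298, 6, -15, 112, 120497, 0, 0, 0, 0, 0, 0⟩ ⟨0, 0, 0, 0, 0, 0, 98831, 0, 0, 0, 0, 0, 0⟩ ⟨0, 0, 0, 0, 0, 0, 98831, 0, 0, 0, 0, 0, 0⟩ ⟨0, 0, 0, 0, 0, 0, 83769, 0, 0, 0, 0, 0, 0⟩ ⟨0, 0, 0, 0, 0, 0, 83769, 0, 0, 0, 0, 0, 0⟩ ⟨512, 0, 74, 12, -30, 131, 72690, 0, 0, 0, 0, 0, 0⟩))
    (.leaf (.box ⟨512, -1, -437, 11, -2, 67, 135232, 0, 0, 0, 0, 0, 0⟩ ⟨0, 0, 0, 0, 0, 0, 112457, 0, 0, 0, 0, 0, 0⟩ ⟨0, 0, 0, 0, 0, 0, 112457, 0, 0, 0, 0, 0, 0⟩ ⟨0, 0, 0, 0, 0, 0, 96248, 0, 0, 0, 0, 0, 0⟩ ⟨0, 0, 0, 0, 0, 0, 96248, 0, 0, 0, 0, 0, 0⟩ ⟨508, -2, -512, 25, -6, 109, 84122, 0, 0, 0, 0, 0, 0⟩))))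
    (.s1
    (.leaf (.box ⟨512, -1, -314, 18, -1, 40, 114773, 0, 0, 0, 0, 0, 0⟩ ⟨0, 0, 0, 0, 0, 0, 94782, 0, 0, 0, 0, 0, 0⟩ ⟨0, 0, 0, 0, 0, 0, 94782, 0, 0, 0, 0, 0, 0⟩ ⟨0, 0, 0, 0, 0, 0, 80721, 0, 0, 0, 0, 0, 0⟩ ⟨0, 0, 0, 0, 0, 0, 80721, 0, 0, 0, 0, 0, 0⟩ ⟨512, -2, -395, 45, -2, 69, 70293, 0, 0, 0, 0, 0, 0⟩))
    (.s0
    (.leaf (.box ⟨713, 0, 314, 6, -16, 115, 119035, 0, 0, 0, 0, 0, 0⟩ ⟨0, 0, 0, 0, 0, 0, 97652, 0, 0, 0, 0, 0, 0⟩ ⟨0, 0, 0, 0, 0, 0, 97652, 0, 0, 0, 0, 0, 0⟩ ⟨0, 0, 0, 0, 0, 0, 82782, 0, 0, 0, 0, 0, 0⟩ ⟨0, 0, 0, 0, 0, 0, 82782, 0, 0, 0, 0, 0, 0⟩ ⟨512, 0, 80, 11, -31, 133, 71841, 0, 0, 0, 0, 0, 0⟩))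
    (.leaf (.box ⟨512, -1, -437, 10, -2, 67, 134164, 0, 0, 0, 0, 0, 0⟩ ⟨0, 0, 0, 0, 0, 0, 111593, 0, 0, 0, 0, 0, 0⟩ ⟨0, 0, 0, 0, 0, 0, 111593, 0, 0, 0, 0, 0, 0⟩ ⟨0, 0, 0, 0, 0, 0, 95522, 0, 0, 0, 0, 0, 0⟩ ⟨0, 0, 0, 0, 0, 0, 95522, 0, 0, 0, 0, 0, 0⟩ ⟨511, -2, -512, 24, -6, 108, 83497, 0, 0, 0, 0, 0, 0⟩)))))
    (.leaf (.box ⟨672, 0, -300, 6, -1, 57, 521058, 0, 0, 0, 0, 0, 0⟩ ⟨512, -2, -232, 29, -4, 48, 92688, 0, 0, 0, 0, 0, 0⟩ ⟨512, -2, -232, 29, -4, 48, 92688, 0, 0, 0, 0, 0, 0⟩ ⟨512, -3, -235, 36, -5, 52, 81856, 0, 0, 0, 0, 0, 0⟩ ⟨512, -3, -235, 36, -5, 52, 81856, 0, 0, 0, 0, 0, 0⟩ ⟨512, -2, -267, 25, -3, 64, 132125, 0, 0, 0, 0, 0, 0⟩)))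
    (.s2
    (.s2
    (.s1
    (.leaf (.box ⟨512, -1, -323, 17, 0, 39, 122562, 0, 0, 0, 0, 0, 1565113⟩ ⟨0, 0, 0, 0, 0, 0, 103107, 0, 0, 0, 0, 0, 0⟩ ⟨0, 0, 0, 0, 0, 0, 103107, 0, 0, 0, 0, 0, 0⟩ ⟨0, 0, 0, 0, 0, 0, 88983, 0, 0, 0, 0, 0, 0⟩ ⟨0, 0, 0, 0, 0, 0, 88983, 0, 0, 0, 0, 0, 0⟩ ⟨512, -2, -396, 40, -1, 67, 78261, 0, 0, 0, 33495623, 0, 0⟩))
    (.s0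
    (.leaf (.box ⟨709, 0, 291, 6, -15, 112, 127199, 0, 0, 0, 0, 0, 0⟩ ⟨0, 0, 0, 0, 0, 0, 106331, 0, 0, 0, 0, 0, 0⟩ ⟨0, 0, 0, 0, 0, 0, 106331, 0, 0, 0, 0, 0, 0⟩ ⟨0, 0, 0, 0, 0, 0, 91345, 0, 0, 0, 0, 0, 0⟩ ⟨0, 0, 0, 0, 0, 0, 91345, 0, 0, 0, 0, 0, 0⟩ ⟨512, 0, 77, 10, -26, 125, 80061, 0, 0, 0, 0, 0, 0⟩))
    (.leaf (.box ⟨512, -1, -444, 10, -2, 65, 142833, 0, 0, 0, 0, 0, 0⟩ ⟨0, 0, 0, 0, 0, 0, 120964, 0, 0, 0, 0, 0, 0⟩ ⟨0, 0, 0, 0, 0, 0, 120964, 0, 0, 0, 0, 0, 0⟩ ⟨0, 0, 0, 0, 0, 0, 104902, 0, 0, 0, 0, 0, 0⟩ ⟨0, 0, 0, 0, 0, 0, 104902, 0, 0, 0, 0, 0, 0⟩ ⟨508, -2, -512, 23, -5, 104, 92605, 0, 0, 0, 0, 0, 0⟩))))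
    (.s1
    (.leaf (.box ⟨512, -1, -322, 17, -1, 39, 121208, 0, 0, 0, 0, 0, 408889879⟩ ⟨0, 0, 0, 0, 0, 0, 101966, 0, 0, 0, 0, 0, 0⟩ ⟨0, 0, 0, 0, 0, 0, 101966, 0, 0, 0, 0, 0, 0⟩ ⟨0, 0, 0, 0, 0, 0, 87997, 0, 0, 0, 0, 0, 0⟩ ⟨0, 0, 0, 0, 0, 0, 87997, 0, 0, 0, 0, 0, 0⟩ ⟨512, -2, -394, 40, -2, 66, 77393, 0, 0, 0, 0, 0, 0⟩))
    (.s0
    (.leaf (.box ⟨751, 0, 315, 6, -16, 119, 125657, 0, 0, 0, 0, 0, 0⟩ ⟨0, 0, 0, 0, 0, 0, 105062, 0, 0, 0, 0, 0, 0⟩ ⟨0, 0, 0, 0, 0, 0, 105062, 0, 0, 0, 0, 0, 0⟩ ⟨0, 0, 0, 0, 0, 0, 90268, 0, 0, 0, 0, 0, 0⟩ ⟨0, 0, 0, 0, 0, 0, 90268, 0, 0, 0, 0, 0, 0⟩ ⟨512, 0, 81, 10, -26, 123, 79125, 0, 0, 0, 0, 0, 0⟩))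
    (.leaf (.box ⟨1144, -1, -990, 6, -1, 146, 574608, 0, 0, 0, 0, 0, 0⟩ ⟨512, -1, -461, 13, -3, 75, 120033, 0, 0, 0, 0, 0, 0⟩ ⟨512, -1, -461, 13, -3, 75, 120033, 0, 0, 0, 0, 0, 0⟩ ⟨512, -2, -483, 17, -4, 87, 108127, 0, 0, 0, 0, 0, 0⟩ ⟨512, -2, -483, 17, -4, 87, 108127, 0, 0, 0, 0, 0, 0⟩ ⟨512, -1, -512, 12, -3, 103, 181523, 0, 0, 0, 0, 0, 0⟩)))))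
    (.leaf (.box ⟨664, 0, -306, 6, -1, 55, 503840, 0, 0, 0, 0, 0, 0⟩ ⟨512, -2, -240, 27, -3, 47, 99714, 0, 27646928, 0, 0, 0, 0⟩ ⟨512, -2, -240, 27, -3, 47, 99714, 0, 27646928, 0, 0, 0, 0⟩ ⟨512, -2, -241, 33, -4, 51, 88666, 0, 0, 0, 0, 0, 0⟩ ⟨512, -2, -241, 33, -4, 51, 88666, 0, 0, 0, 0, 0, 0⟩ ⟨512, -2, -255, 23, -3, 59, 147674, 0, 0, 0, 0, 0, 0⟩))))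
    (.s3
    (.leaf (.box ⟨534, -1, -236, 6, -1, 45, 498225, 0, 0, 0, 0, 0, 0⟩ ⟨512, -2, -238, 30, -4, 48, 88609, 0, 0, 0, 0, 0, 0⟩ ⟨512, -2, -238, 30, -4, 48, 88609, 0, 0, 0, 0, 0, 0⟩ ⟨512, -3, -240, 37, -5, 52, 78235, 0, 0, 0, 0, 0, 0⟩ ⟨512, -3, -240, 37, -5, 52, 78235, 0, 0, 0, 0, 0, 0⟩ ⟨512, -2, -276, 26, -4, 64, 126253, 0, 0, 0, 0, 0, 0⟩))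
    (.leaf (.box ⟨512, -1, -231, 6, -1, 42, 481759, 0, 0, 0, 0, 0, 0⟩ ⟨512, -2, -244, 27, -4, 47, 95327, 0, 0, 0, 0, 0, 0⟩ ⟨512, -2, -244, 27, -4, 47, 95327, 0, 0, 0, 0, 0, 0⟩ ⟨512, -3, -250, 34, -5, 52, 84745, 0, 0, 0, 0, 0, 0⟩ ⟨512, -3, -250, 34, -5, 52, 84745, 0, 0, 0, 0, 0, 0⟩ ⟨512, -2, -272, 23, -3, 61, 141112, 0, 0, 0, 0, 0, 0⟩))))
    (.s2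
    (.leaf (.box ⟨558, -1, -241, 6, -1, 45, 460499, 0, 0, 0, 0, 0, 0⟩ ⟨512, -3, -237, 29, -5, 46, 84677, 0, 0, 0, 0, 0, 0⟩ ⟨512, -3, -237, 29, -5, 46, 84677, 0, 0, 0, 0, 0, 0⟩ ⟨512, -4, -256, 36, -7, 52, 74739, 0, 0, 0, 0, 0, 0⟩ ⟨512, -4, -256, 36, -7, 52, 74739, 0, 0, 0, 0, 0, 0⟩ ⟨512, -3, -280, 26, -5, 60, 120573, 0, 0, 0, 0, 0, 0⟩))
    (.leaf (.box ⟨632, -1, -265, 6, -1, 49, 440059, 0, 0, 0, 0, 0, 0⟩ ⟨512, -3, -234, 27, -6, 45, 80891, 0, 0, 0, 0, 0, 0⟩ ⟨512, -3, -234, 27, -6, 45, 80891, 0, 0, 0, 0, 0, 0⟩ ⟨512, -4, -259, 34, -8, 51, 71366, 0, 0, 0, 0, 0, 0⟩ ⟨512, -4, -259, 34, -8, 51, 71366, 0, 0, 0, 0, 0, 0⟩ ⟨512, -3, -293, 24, -6, 59, 115085, 0, 0, 0, 0, 0, 0⟩)))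

/-- A piece of the tree. -/
noncomputable def tree2 : Tree LeafX :=
  .s0
    (.s1
    (.s0
    (.leaf (.box ⟨512, -3, 89, 14, -18, 79, 81231, 0, 0, 0, 0, 0, 0⟩ ⟨0, 0, 0, 0, 0, 0, 67207, 0, 0, 0, 0, 0, 0⟩ ⟨0, 0, 0, 0, 0, 0, 67207, 0, 0, 0, 0, 0, 0⟩ ⟨0, 0, 0, 0, 0, 0, 57313, 0, 0, 0, 0, 0, 0⟩ ⟨0, 0, 0, 0, 0, 0, 57313, 0, 0, 0, 0, 0, 0⟩ ⟨512, -5, -195, 29, -45, 126, 49957, 0, 0, 0, 0, 0, 0⟩))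
    (.leaf (.box ⟨962, -1, -646, 6, -5, 134, 389766, 0, 0, 0, 0, 11218868736, 644995826⟩ ⟨512, -4, -392, 19, -17, 78, 71955, 0, 0, 0, 0, 3336218969, 456135773⟩ ⟨512, -4, -392, 19, -17, 78, 71955, 0, 0, 0, 0, 3336218969, 456135773⟩ ⟨512, -4, -430, 22, -19, 81, 63827, 0, 0, 0, 0, 3056982274, 850177909⟩ ⟨512, -4, -430, 22, -19, 81, 63827, 0, 0, 0, 0, 3056982274, 850177909⟩ ⟨512, -3, -498, 14, -13, 89, 103454, 0, 0, 0, 0, 3388292637, 1091882221⟩)))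
    (.leaf (.box ⟨512, -2, 141, 9, -20, 62, 78202, 0, 0, 0, 0, 0, 0⟩ ⟨0, 0, 0, 0, 0, 0, 65716, 0, 0, 0, 0, 0, 0⟩ ⟨0, 0, 0, 0, 0, 0, 65716, 0, 0, 0, 0, 0, 0⟩ ⟨0, 0, 0, 0, 0, 0, 56668, 0, 0, 0, 0, 0, 0⟩ ⟨0, 0, 0, 0, 0, 0, 56668, 0, 0, 0, 0, 0, 0⟩ ⟨512, -3, -73, 15, -41, 82, 49809, 0, 0, 0, 0, 0, 0⟩)))
    (.s2
    (.leaf (.box ⟨512, -3, -467, 18, -3, 49, 106413, 0, 0, 0, 0, 0, 0⟩ ⟨0, 0, 0, 0, 0, 0, 88407, 0, 0, 0, 0, 0, 0⟩ ⟨0, 0, 0, 0, 0, 0, 88407, 0, 0, 0, 0, 0, 0⟩ ⟨0, 0, 0, 0, 0, 0, 75613, 0, 0, 0, 0, 0, 0⟩ ⟨0, 0, 0, 0, 0, 0, 75613, 0, 0, 0, 0, 0, 0⟩ ⟨493, -5, -512, 35, -8, 63, 66053, 0, 0, 0, 0, 0, 0⟩))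
    (.s2
    (.leaf (.box ⟨849, -1, -834, 6, -2, 89, 456038, 0, 0, 0, 0, 0, 0⟩ ⟨491, -3, -512, 19, -7, 56, 85136, 0, 0, 0, 0, 0, 0⟩ ⟨491, -3, -512, 19, -7, 56, 85136, 0, 0, 0, 0, 0, 0⟩ ⟨476, -4, -512, 23, -8, 58, 75864, 0, 0, 0, 0, 0, 0⟩ ⟨476, -4, -512, 23, -8, 58, 75864, 0, 0, 0, 0, 0, 0⟩ ⟨431, -2, -512, 14, -5, 59, 123501, 0, 0, 0, 0, 0, 0⟩))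
    (.s1
    (.s0
    (.leaf (.box ⟨289, -2, -512, 9, -6, 51, 98307, 0, 0, 0, 0, 1699218479, 0⟩ ⟨0, 0, 0, 0, 0, 0, 81930, 0, 0, 0, 0, 0, 0⟩ ⟨0, 0, 0, 0, 0, 0, 81930, 0, 0, 0, 0, 0, 0⟩ ⟨0, 0, 0, 0, 0, 0, 70230, 0, 0, 0, 0, 0, 0⟩ ⟨0, 0, 0, 0, 0, 0, 70230, 0, 0, 0, 0, 0, 0⟩ ⟨203, -2, -512, 12, -10, 52, 61454, 0, 0, 0, 0, 1525152308, 85926090⟩))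
    (.leaf (.box ⟨173, -1, -583, 6, -1, 47, 120384, 0, 0, 0, 0, 1099128985, 0⟩ ⟨0, 0, 0, 0, 0, 0, 101166, 0, 0, 0, 0, 0, 0⟩ ⟨0, 0, 0, 0, 0, 0, 101166, 0, 0, 0, 0, 0, 0⟩ ⟨0, 0, 0, 0, 0, 0, 87239, 0, 0, 0, 0, 0, 0⟩ ⟨0, 0, 0, 0, 0, 0, 87239, 0, 0, 0, 0, 0, 0⟩ ⟨105, -2, -512, 9, -2, 47, 76682, 0, 0, 0, 0, 4463153, 0⟩)))
    (.leaf (.box ⟨482, -2, -512, 11, -13, 71, 107414, 0, 0, 0, 0, 4380579198, 0⟩ ⟨0, 0, 0, 0, 0, 0, 90943, 0, 0, 0, 0, 0, 0⟩ ⟨0, 0, 0, 0, 0, 0, 90943, 0, 0, 0, 0, 0, 0⟩ ⟨0, 0, 0, 0, 0, 0, 78852, 0, 0, 0, 0, 0, 0⟩ ⟨0, 0, 0, 0, 0, 0, 78852, 0, 0, 0, 0, 0, 0⟩ ⟨369, -2, -512, 14, -18, 67, 69598, 0, 0, 0, 0, 2741582685, 0⟩)))))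

/-- A piece of the tree. -/
noncomputable def tree3 : Tree LeafX :=
  .s2
    (.s3
    (.s2
    (.s2
    (.s2
    (.s1
    (.leaf (.box ⟨512, -1, -329, 16, 0, 38, 129844, 0, 0, 0, 0, 0, 1912879658⟩ ⟨0, 0, 0, 0, 0, 0, 111565, 0, 0, 0, 0, 0, 0⟩ ⟨0, 0, 0, 0, 0, 0, 111565, 0, 0, 0, 0, 0, 0⟩ ⟨0, 0, 0, 0, 0, 0, 97797, 0, 0, 0, 0, 0, 0⟩ ⟨0, 0, 0, 0, 0, 0, 97797, 0, 0, 0, 0, 0, 0⟩ ⟨512, -2, -394, 37, -1, 64, 87053, 0, 0, 0, 0, 0, 0⟩))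
    (.s0
    (.leaf (.box ⟨836, 0, 327, 6, -16, 130, 134697, 0, 0, 0, 0, 0, 0⟩ ⟨0, 0, 0, 0, 0, 0, 115060, 0, 0, 0, 0, 0, 0⟩ ⟨0, 0, 0, 0, 0, 0, 115060, 0, 0, 0, 0, 0, 0⟩ ⟨0, 0, 0, 0, 0, 0, 100420, 0, 0, 0, 0, 0, 0⟩ ⟨0, 0, 0, 0, 0, 0, 100420, 0, 0, 0, 0, 0, 0⟩ ⟨512, 0, 82, 9, -23, 124, 89085, 0, 0, 0, 0, 0, 0⟩))
    (.leaf (.box ⟨512, -1, -439, 10, -1, 62, 151341, 0, 0, 0, 0, 0, 0⟩ ⟨0, 0, 0, 0, 0, 0, 130865, 0, 0, 0, 0, 0, 0⟩ ⟨0, 0, 0, 0, 0, 0, 130865, 0, 0, 0, 0, 0, 0⟩ ⟨0, 0, 0, 0, 0, 0, 115269, 0, 0, 0, 0, 0, 0⟩ ⟨0, 0, 0, 0, 0, 0, 115269, 0, 0, 0, 0, 0, 0⟩ ⟨509, -2, -512, 21, -4, 100, 102994, 0, 0, 0, 0, 0, 0⟩))))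
    (.s1
    (.leaf (.box ⟨512, -1, -326, 16, 0, 38, 128409, 0, 0, 0, 0, 0, 1901036192⟩ ⟨0, 0, 0, 0, 0, 0, 110330, 0, 0, 0, 0, 0, 0⟩ ⟨0, 0, 0, 0, 0, 0, 110330, 0, 0, 0, 0, 0, 0⟩ ⟨0, 0, 0, 0, 0, 0, 96713, 0, 0, 0, 0, 0, 0⟩ ⟨0, 0, 0, 0, 0, 0, 96713, 0, 0, 0, 0, 0, 0⟩ ⟨512, -2, -380, 36, -1, 61, 86087, 0, 0, 0, 0, 0, 0⟩))
    (.s0
    (.leaf (.box ⟨755, 0, 300, 6, -15, 116, 133067, 0, 0, 0, 0, 0, 0⟩ ⟨0, 0, 0, 0, 0, 0, 113688, 0, 0, 0, 0, 0, 0⟩ ⟨0, 0, 0, 0, 0, 0, 113688, 0, 0, 0, 0, 0, 0⟩ ⟨0, 0, 0, 0, 0, 0, 99235, 0, 0, 0, 0, 0, 0⟩ ⟨0, 0, 0, 0, 0, 0, 99235, 0, 0, 0, 0, 0, 0⟩ ⟨512, 0, 85, 9, -24, 122, 88042, 0, 0, 0, 0, 0, 0⟩))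
    (.leaf (.box ⟨512, -1, -453, 10, -2, 64, 150149, 0, 0, 0, 0, 0, 0⟩ ⟨0, 0, 0, 0, 0, 0, 129857, 0, 0, 0, 0, 0, 0⟩ ⟨0, 0, 0, 0, 0, 0, 129857, 0, 0, 0, 0, 0, 0⟩ ⟨0, 0, 0, 0, 0, 0, 114396, 0, 0, 0, 0, 0, 0⟩ ⟨0, 0, 0, 0, 0, 0, 114396, 0, 0, 0, 0, 0, 0⟩ ⟨512, -2, -511, 20, -4, 99, 102225, 0, 0, 0, 0, 0, 0⟩)))))
    (.leaf (.box ⟨616, 0, -293, 6, -1, 50, 487719, 0, 0, 0, 0, 0, 0⟩ ⟨512, -2, -242, 25, -3, 45, 107893, 0, 0, 0, 0, 0, 0⟩ ⟨512, -2, -242, 25, -3, 45, 107893, 0, 0, 0, 0, 0, 0⟩ ⟨512, -2, -255, 31, -4, 51, 96709, 0, 0, 0, 0, 0, 0⟩ ⟨512, -2, -255, 31, -4, 51, 96709, 0, 0, 0, 0, 0, 0⟩ ⟨512, -1, -268, 20, -2, 59, 167355, 0, 0, 0, 0, 0, 0⟩)))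
    (.s2
    (.leaf (.box ⟨672, 0, -319, 6, -1, 55, 476932, 0, 0, 0, 0, 0, 0⟩ ⟨512, -2, -246, 25, -3, 45, 105497, 0, 0, 0, 0, 0, 0⟩ ⟨512, -2, -246, 25, -3, 45, 105497, 0, 0, 0, 0, 0, 0⟩ ⟨512, -2, -256, 30, -4, 51, 94552, 0, 0, 0, 0, 0, 0⟩ ⟨512, -2, -256, 30, -4, 51, 94552, 0, 0, 0, 0, 0, 0⟩ ⟨512, -2, -274, 20, -3, 59, 163607, 0, 0, 0, 0, 0, 0⟩))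
    (.leaf (.box ⟨512, -2, -239, 20, -3, 41, 120065, 0, 0, 0, 0, 0, 0⟩ ⟨0, 0, 0, 0, 0, 0, 103145, 0, 0, 0, 0, 0, 0⟩ ⟨0, 0, 0, 0, 0, 0, 103145, 0, 0, 0, 0, 0, 0⟩ ⟨0, 0, 0, 0, 0, 0, 90405, 0, 0, 0, 0, 0, 0⟩ ⟨0, 0, 0, 0, 0, 0, 90405, 0, 0, 0, 0, 0, 0⟩ ⟨512, -3, -272, 37, -6, 58, 80465, 0, 0, 0, 0, 0, 0⟩))))
    (.s2
    (.s2
    (.s2
    (.s1
    (.leaf (.box ⟨650, 0, -425, 6, 0, 48, 488636, 0, 0, 0, 0, 0, 3334859085⟩ ⟨512, -1, -349, 20, 0, 43, 117214, 0, 0, 0, 0, 0, 0⟩ ⟨512, -1, -349, 20, 0, 43, 117214, 0, 0, 0, 0, 0, 0⟩ ⟨512, -1, -365, 24, 0, 50, 109985, 0, 0, 0, 0, 0, 0⟩ ⟨512, -1, -365, 24, 0, 50, 109985, 0, 0, 0, 0, 0, 0⟩ ⟨512, -1, -394, 16, 0, 61, 199687, 0, 0, 0, 0, 0, 0⟩))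
    (.s0
    (.leaf (.box ⟨807, 0, 296, 6, -15, 122, 137366, 0, 0, 0, 0, 0, 0⟩ ⟨0, 0, 0, 0, 0, 0, 120896, 0, 0, 0, 0, 0, 0⟩ ⟨0, 0, 0, 0, 0, 0, 120896, 0, 0, 0, 0, 0, 0⟩ ⟨0, 0, 0, 0, 0, 0, 107953, 0, 0, 0, 0, 0, 0⟩ ⟨0, 0, 0, 0, 0, 0, 107953, 0, 0, 0, 0, 0, 0⟩ ⟨512, 0, 81, 8, -20, 118, 97512, 0, 0, 0, 0, 0, 0⟩))
    (.leaf (.box ⟨512, -1, -447, 10, -1, 60, 154504, 0, 0, 0, 0, 0, 0⟩ ⟨0, 0, 0, 0, 0, 0, 137470, 0, 0, 0, 0, 0, 0⟩ ⟨0, 0, 0, 0, 0, 0, 137470, 0, 0, 0, 0, 0, 0⟩ ⟨0, 0, 0, 0, 0, 0, 123819, 0, 0, 0, 0, 0, 0⟩ ⟨0, 0, 0, 0, 0, 0, 123819, 0, 0, 0, 0, 0, 0⟩ ⟨510, -2, -512, 19, -3, 95, 112634, 0, 0, 0, 0, 0, 0⟩))))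
    (.s1
    (.leaf (.box ⟨739, 0, -479, 6, 0, 54, 483241, 0, 0, 0, 0, 0, 4382584070⟩ ⟨512, -1, -347, 19, 0, 42, 115917, 0, 0, 0, 0, 0, 0⟩ ⟨512, -1, -347, 19, 0, 42, 115917, 0, 0, 0, 0, 0, 0⟩ ⟨512, -1, -366, 24, 0, 50, 108764, 0, 0, 0, 0, 0, 0⟩ ⟨512, -1, -366, 24, 0, 50, 108764, 0, 0, 0, 0, 0, 0⟩ ⟨512, -1, -394, 15, 0, 60, 197464, 0, 0, 0, 0, 0, 0⟩))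
    (.s0
    (.leaf (.box ⟨762, 0, 280, 6, -14, 113, 135706, 0, 0, 0, 0, 0, 0⟩ ⟨0, 0, 0, 0, 0, 0, 119453, 0, 0, 0, 0, 0, 0⟩ ⟨0, 0, 0, 0, 0, 0, 119453, 0, 0, 0, 0, 0, 0⟩ ⟨0, 0, 0, 0, 0, 0, 106676, 0, 0, 0, 0, 0, 0⟩ ⟨0, 0, 0, 0, 0, 0, 106676, 0, 0, 0, 0, 0, 0⟩ ⟨512, 0, 82, 8, -20, 112, 96368, 0, 0, 0, 0, 0, 0⟩))
    (.leaf (.box ⟨512, -1, -461, 10, -1, 62, 153290, 0, 0, 0, 0, 0, 0⟩ ⟨0, 0, 0, 0, 0, 0, 136412, 0, 0, 0, 0, 0, 0⟩ ⟨0, 0, 0, 0, 0, 0, 136412, 0, 0, 0, 0, 0, 0⟩ ⟨0, 0, 0, 0, 0, 0, 122881, 0, 0, 0, 0, 0, 0⟩ ⟨0, 0, 0, 0, 0, 0, 122881, 0, 0, 0, 0, 0, 0⟩ ⟨512, -2, -512, 18, -3, 94, 111792, 0, 0, 0, 0, 0, 0⟩)))))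
    (.leaf (.box ⟨611, 0, -302, 6, -1, 49, 472596, 0, 0, 0, 0, 0, 0⟩ ⟨512, -2, -252, 24, -2, 44, 113356, 0, 0, 0, 0, 0, 0⟩ ⟨512, -2, -252, 24, -2, 44, 113356, 0, 0, 0, 0, 0, 0⟩ ⟨512, -2, -258, 27, -3, 49, 106352, 0, 0, 0, 0, 0, 0⟩ ⟨512, -2, -258, 27, -3, 49, 106352, 0, 0, 0, 0, 0, 0⟩ ⟨512, -1, -261, 17, -2, 55, 193071, 0, 0, 0, 0, 0, 0⟩)))
    (.leaf (.box ⟨512, -1, -244, 7, -1, 40, 451881, 0, 0, 0, 0, 0, 0⟩ ⟨512, -2, -253, 24, -3, 44, 108369, 0, 0, 0, 0, 0, 0⟩ ⟨512, -2, -253, 24, -3, 44, 108369, 0, 0, 0, 0, 0, 0⟩ ⟨512, -2, -259, 28, -4, 49, 101650, 0, 0, 0, 0, 0, 0⟩ ⟨512, -2, -259, 28, -4, 49, 101650, 0, 0, 0, 0, 0, 0⟩ ⟨512, -2, -271, 17, -2, 55, 184496, 0, 0, 0, 0, 0, 0⟩))))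
    (.s2
    (.leaf (.box ⟨512, -1, -236, 6, -1, 39, 431934, 0, 0, 0, 0, 0, 0⟩ ⟨512, -3, -251, 26, -4, 44, 98568, 0, 0, 0, 0, 0, 0⟩ ⟨512, -3, -251, 26, -4, 44, 98568, 0, 0, 0, 0, 0, 0⟩ ⟨512, -3, -261, 30, -5, 49, 88303, 0, 0, 0, 0, 0, 0⟩ ⟨512, -3, -261, 30, -5, 49, 88303, 0, 0, 0, 0, 0, 0⟩ ⟨512, -2, -277, 19, -3, 55, 152730, 0, 0, 0, 0, 0, 0⟩))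
    (.leaf (.box ⟨581, -1, -263, 6, -1, 43, 412754, 0, 0, 0, 0, 0, 0⟩ ⟨512, -3, -247, 24, -5, 43, 94161, 0, 0, 0, 0, 0, 0⟩ ⟨512, -3, -247, 24, -5, 43, 94161, 0, 0, 0, 0, 0, 0⟩ ⟨512, -4, -268, 29, -6, 48, 84320, 0, 0, 0, 0, 0, 0⟩ ⟨512, -4, -268, 29, -6, 48, 84320, 0, 0, 0, 0, 0, 0⟩ ⟨512, -2, -295, 18, -4, 55, 145784, 0, 0, 0, 0, 0, 0⟩)))

/-- A piece of the tree. -/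
noncomputable def tree4 : Tree LeafX :=
  .s0
    (.s1
    (.s0
    (.leaf (.box ⟨512, -2, 66, 12, -15, 70, 90822, 0, 0, 0, 0, 0, 0⟩ ⟨0, 0, 0, 0, 0, 0, 78235, 0, 0, 0, 0, 0, 0⟩ ⟨0, 0, 0, 0, 0, 0, 78235, 0, 0, 0, 0, 0, 0⟩ ⟨0, 0, 0, 0, 0, 0, 68713, 0, 0, 0, 0, 0, 0⟩ ⟨0, 0, 0, 0, 0, 0, 68713, 0, 0, 0, 0, 0, 0⟩ ⟨512, -4, -152, 23, -34, 110, 61256, 0, 0, 0, 0, 4549326150, 2156848418⟩))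
    (.s1
    (.leaf (.box ⟨440, -1, -512, 9, -9, 72, 97019, 0, 0, 0, 0, 4373880720, 469780570⟩ ⟨0, 0, 0, 0, 0, 0, 83754, 0, 0, 0, 0, 0, 0⟩ ⟨0, 0, 0, 0, 0, 0, 83754, 0, 0, 0, 0, 0, 0⟩ ⟨0, 0, 0, 0, 0, 0, 73679, 0, 0, 0, 0, 0, 0⟩ ⟨0, 0, 0, 0, 0, 0, 73679, 0, 0, 0, 0, 0, 0⟩ ⟨396, -2, -512, 14, -14, 73, 65768, 0, 0, 0, 0, 3067514907, 879172132⟩))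
    (.leaf (.box ⟨512, -3, -327, 11, -18, 89, 102417, 0, 0, 0, 0, 1464129374, 0⟩ ⟨0, 0, 0, 0, 0, 0, 90126, 0, 0, 0, 0, 0, 0⟩ ⟨0, 0, 0, 0, 0, 0, 90126, 0, 0, 0, 0, 0, 0⟩ ⟨0, 0, 0, 0, 0, 0, 80469, 0, 0, 0, 0, 0, 0⟩ ⟨0, 0, 0, 0, 0, 0, 80469, 0, 0, 0, 0, 0, 0⟩ ⟨512, -4, -500, 15, -28, 103, 72680, 0, 0, 0, 0, 0, 0⟩))))
    (.leaf (.box ⟨512, -2, 128, 8, -19, 61, 87614, 0, 0, 0, 0, 0, 0⟩ ⟨0, 0, 0, 0, 0, 0, 76469, 0, 0, 0, 0, 0, 0⟩ ⟨0, 0, 0, 0, 0, 0, 76469, 0, 0, 0, 0, 0, 0⟩ ⟨0, 0, 0, 0, 0, 0, 67839, 0, 0, 0, 0, 0, 0⟩ ⟨0, 0, 0, 0, 0, 0, 67839, 0, 0, 0, 0, 0, 0⟩ ⟨512, -3, -57, 14, -33, 76, 60959, 0, 0, 0, 0, 0, 0⟩)))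
    (.s2
    (.leaf (.box ⟨512, -2, -478, 16, -3, 47, 119070, 0, 0, 0, 0, 0, 0⟩ ⟨0, 0, 0, 0, 0, 0, 102901, 0, 0, 0, 0, 0, 0⟩ ⟨0, 0, 0, 0, 0, 0, 102901, 0, 0, 0, 0, 0, 0⟩ ⟨0, 0, 0, 0, 0, 0, 90598, 0, 0, 0, 0, 0, 0⟩ ⟨0, 0, 0, 0, 0, 0, 90598, 0, 0, 0, 0, 0, 0⟩ ⟨493, -4, -512, 28, -6, 59, 80922, 0, 0, 0, 0, 0, 0⟩))
    (.s2
    (.leaf (.box ⟨512, -2, -512, 14, -5, 50, 114535, 0, 0, 0, 0, 0, 0⟩ ⟨0, 0, 0, 0, 0, 0, 99105, 0, 0, 0, 0, 0, 0⟩ ⟨0, 0, 0, 0, 0, 0, 99105, 0, 0, 0, 0, 0, 0⟩ ⟨0, 0, 0, 0, 0, 0, 87339, 0, 0, 0, 0, 0, 0⟩ ⟨0, 0, 0, 0, 0, 0, 87339, 0, 0, 0, 0, 0, 0⟩ ⟨441, -4, -512, 22, -8, 55, 78070, 0, 0, 0, 0, 0, 0⟩))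
    (.s2
    (.leaf (.box ⟨484, -3, -512, 14, -6, 51, 112282, 0, 0, 0, 0, 0, 0⟩ ⟨0, 0, 0, 0, 0, 0, 97225, 0, 0, 0, 0, 0, 0⟩ ⟨0, 0, 0, 0, 0, 0, 97225, 0, 0, 0, 0, 0, 0⟩ ⟨0, 0, 0, 0, 0, 0, 85728, 0, 0, 0, 0, 0, 0⟩ ⟨0, 0, 0, 0, 0, 0, 85728, 0, 0, 0, 0, 0, 0⟩ ⟨399, -3, -512, 18, -9, 53, 76662, 0, 0, 0, 0, 0, 0⟩))
    (.s1
    (.leaf (.box ⟨766, -1, -1337, 6, -2, 107, 409384, 0, 0, 0, 0, 9602740337, 0⟩ ⟨268, -2, -512, 9, -4, 42, 95332, 0, 0, 0, 0, 1337386409, 0⟩ ⟨268, -2, -512, 9, -4, 42, 95332, 0, 0, 0, 0, 1337386409, 0⟩ ⟨252, -2, -512, 10, -4, 43, 86407, 0, 0, 0, 0, 1100701246, 0⟩ ⟨252, -2, -512, 10, -4, 43, 86407, 0, 0, 0, 0, 1100701246, 0⟩ ⟨261, -1, -620, 6, -3, 54, 151126, 0, 0,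 0, 0, 1569914487, 0⟩))
    (.leaf (.box ⟨456, -2, -512, 9, -11, 66, 120361, 0, 0, 0, 0, 5524593125, 0⟩ ⟨0, 0, 0, 0, 0, 0, 105791, 0, 0, 0, 0, 0, 0⟩ ⟨0, 0, 0, 0, 0, 0, 105791, 0, 0, 0, 0, 0, 0⟩ ⟨0, 0, 0, 0, 0, 0, 94367, 0, 0, 0, 0, 0, 0⟩ ⟨0, 0, 0, 0, 0, 0, 94367, 0, 0, 0, 0, 0, 0⟩ ⟨353, -2, -512, 12, -15, 62, 85169, 0, 0, 0, 0, 3185617761, 0⟩))))))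

/-- A piece of the tree. -/
noncomputable def tree5 : Tree LeafX :=
  .s0
    (.s2
    (.s1
    (.s0
    (.leaf (.box ⟨248, 1, 512, 11, -13, 96, 96567, 0, 0, 0, 0, 0, 0⟩ ⟨0, 0, 0, 0, 0, 0, 79554, 0, 0, 0, 0, 0, 0⟩ ⟨0, 0, 0, 0, 0, 0, 79554, 0, 0, 0, 0, 0, 0⟩ ⟨0, 0, 0, 0, 0, 0, 67638, 0, 0, 0, 0, 0, 0⟩ ⟨0, 0, 0, 0, 0, 0, 67638, 0, 0, 0, 0, 0, 0⟩ ⟨286, 3, 512, 26, -34, 147, 58826, 0, 0, 0, 0, 0, 0⟩))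
    (.leaf (.box ⟨452, 0, 512, 13, -19, 151, 111452, 0, 0, 0, 0, 0, 0⟩ ⟨0, 0, 0, 0, 0, 0, 92903, 0, 0, 0, 0, 0, 0⟩ ⟨0, 0, 0, 0, 0, 0, 92903, 0, 0, 0, 0, 0, 0⟩ ⟨0, 0, 0, 0, 0, 0, 79647, 0, 0, 0, 0, 0, 0⟩ ⟨0, 0, 0, 0, 0, 0, 79647, 0, 0, 0, 0, 0, 0⟩ ⟨512, 1, 417, 25, -38, 185, 69701, 0, 0, 0, 0, 0, 0⟩)))
    (.s0
    (.s0
    (.leaf (.box ⟨243, 1, 512, 9, -2, 87, 96018, 0, 0, 0, 0, 0, 0⟩ ⟨0, 0, 0, 0, 0, 0, 79222, 0, 0, 0, 0, 0, 0⟩ ⟨0, 0, 0, 0, 0, 0, 79222, 0, 0, 0, 0, 0, 0⟩ ⟨0, 0, 0, 0, 0, 0, 67427, 0, 0, 0, 0, 0, 0⟩ ⟨0, 0, 0, 0, 0, 0, 67427, 0, 0, 0, 0, 0, 0⟩ ⟨215, 1, 512, 17, -5, 111, 58689, 0, 0, 0, 0, 0, 0⟩))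
    (.s2
    (.leaf (.box ⟨126, 0, 512, 6, -4, 111, 114046, 0, 0, 0, 0, 0, 0⟩ ⟨0, 0, 0, 0, 0, 0, 94456, 0, 0, 0, 0, 0, 0⟩ ⟨0, 0, 0, 0, 0, 0, 94456, 0, 0, 0, 0, 0, 0⟩ ⟨0, 0, 0, 0, 0, 0, 80609, 0, 0, 0, 0, 0, 0⟩ ⟨0, 0, 0, 0, 0, 0, 80609, 0, 0, 0, 0, 0, 0⟩ ⟨118, 1, 512, 12, -7, 128, 70302, 0, 0, 0, 0, 0, 0⟩))
    (.leaf (.box ⟨117, 0, 512, 8, -4, 94, 105292, 0, 0, 0, 0, 0, 0⟩ ⟨0, 0, 0, 0, 0, 0, 87449, 0, 0, 0, 0, 0, 0⟩ ⟨0, 0, 0, 0, 0, 0, 87449, 0, 0, 0, 0, 0, 0⟩ ⟨0, 0, 0, 0, 0, 0, 74777, 0, 0, 0, 0, 0, 0⟩ ⟨0, 0, 0, 0, 0, 0, 74777, 0, 0, 0, 0, 0, 0⟩ ⟨103, 0, 512, 15, -8, 111, 65312, 0, 0, 0, 0, 0, 0⟩))))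
    (.s2
    (.s0
    (.s1
    (.leaf (.box ⟨140, 0, 730, 6, -10, 177, 120247, 0, 0, 0, 0, 0, 0⟩ ⟨0, 0, 0, 0, 0, 0, 99735, 0, 0, 0, 0, 0, 0⟩ ⟨0, 0, 0, 0, 0, 0, 99735, 0, 0, 0, 0, 0, 0⟩ ⟨0, 0, 0, 0, 0, 0, 85200, 0, 0, 0, 0, 0, 0⟩ ⟨0, 0, 0, 0, 0, 0, 85200, 0, 0, 0, 0, 0, 0⟩ ⟨130, 1, 512, 8, -13, 143, 74363, 0, 0, 0, 0, 0, 0⟩))
    (.leaf (.box ⟨168, 0, 813, 6, -4, 197, 119971, 0, 0, 0, 0, 0, 0⟩ ⟨0, 0, 0, 0, 0, 0, 99932, 0, 0, 0, 0, 0, 0⟩ ⟨0, 0, 0, 0, 0, 0, 99932, 0, 0, 0, 0, 0, 0⟩ ⟨0, 0, 0, 0, 0, 0, 85629, 0, 0, 0, 0, 0, 0⟩ ⟨0, 0, 0, 0, 0, 0, 85629, 0, 0, 0, 0, 0, 0⟩ ⟨97, 0, 512, 7, -5, 132, 74907, 0, 0, 0, 0, 0, 0⟩)))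
    (.leaf (.box ⟨147, 0, 512, 7, -6, 145, 124535, 0, 0, 0, 0, 0, 0⟩ ⟨0, 0, 0, 0, 0, 0, 103513, 0, 0, 0, 0, 0, 0⟩ ⟨0, 0, 0, 0, 0, 0, 103513, 0, 0, 0, 0, 0, 0⟩ ⟨0, 0, 0, 0, 0, 0, 88562, 0, 0, 0, 0, 0, 0⟩ ⟨0, 0, 0, 0, 0, 0, 88562, 0, 0, 0, 0, 0, 0⟩ ⟨213, 0, 512, 12, -11, 156, 77385, 0, 0, 0, 0, 0, 0⟩)))
    (.s1
    (.leaf (.box ⟨173, 0, 512, 6, -10, 121, 111779, 0, 0, 0, 0, 0, 0⟩ ⟨0, 0, 0, 0, 0, 0, 93128, 0, 0, 0, 0, 0, 0⟩ ⟨0, 0, 0, 0, 0, 0, 93128, 0, 0, 0, 0, 0, 0⟩ ⟨0, 0, 0, 0, 0, 0, 79811, 0, 0, 0, 0, 0, 0⟩ ⟨0, 0, 0, 0, 0, 0, 79811, 0, 0, 0, 0, 0, 0⟩ ⟨194, 0, 512, 10, -18, 136, 69826, 0, 0, 0, 0, 0, 0⟩))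
    (.leaf (.box ⟨667, 0, 2457, 6, -5, 556, 470994, 0, 0, 0, 0, 0, 0⟩ ⟨123, 0, 512, 7, -6, 117, 93847, 0, 0, 0, 0, 0, 0⟩ ⟨123, 0, 512, 7, -6, 117, 93847, 0, 0, 0, 0, 0, 0⟩ ⟨129, 0, 512, 7, -6, 119, 83662, 0, 0, 0, 0, 0, 0⟩ ⟨129, 0, 512, 7, -6, 119, 83662, 0, 0, 0, 0, 0, 0⟩ ⟨186, 0, 680, 6, -5, 160, 136249, 0, 0, 0, 0, 0, 0⟩))))))
    (.s0
    (.s1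
    (.leaf (.box ⟨434, -1, 512, 18, -21, 81, 76248, 0, 0, 0, 0, 0, 0⟩ ⟨0, 0, 0, 0, 0, 0, 63667, 0, 0, 0, 0, 0, 0⟩ ⟨0, 0, 0, 0, 0, 0, 63667, 0, 0, 0, 0, 0, 0⟩ ⟨0, 0, 0, 0, 0, 0, 54649, 0, 0, 0, 0, 0, 0⟩ ⟨0, 0, 0, 0, 0, 0, 54649, 0, 0, 0, 0, 0, 0⟩ ⟨512, -2, 407, 39, -53, 127, 47869, 0, 0, 0, 0, 0, 0⟩))
    (.leaf (.box ⟨450, -1, 512, 16, -5, 70, 76314, 0, 0, 0, 0, 0, 0⟩ ⟨0, 0, 0, 0, 0, 0, 63711, 0, 0, 0, 0, 0, 0⟩ ⟨0, 0, 0, 0, 0, 0, 63711, 0, 0, 0, 0, 0, 0⟩ ⟨0, 0, 0, 0, 0, 0, 54681, 0, 0, 0, 0, 0, 0⟩ ⟨0, 0, 0, 0, 0, 0, 54681, 0, 0, 0, 0, 0, 0⟩ ⟨512, -2, 479, 30, -10, 85, 47892, 0, 0, 0, 0, 0, 0⟩)))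
    (.leaf (.box ⟨512, -2, 366, 19, -16, 96, 96566, 0, 0, 0, 0, 0, 0⟩ ⟨0, 0, 0, 0, 0, 0, 81427, 0, 0, 0, 0, 0, 0⟩ ⟨0, 0, 0, 0, 0, 0, 81427, 0, 0, 0, 0, 0, 0⟩ ⟨0, 0, 0, 0, 0, 0, 70392, 0, 0, 0, 0, 0, 0⟩ ⟨0, 0, 0, 0, 0, 0, 70392, 0, 0, 0, 0, 0, 0⟩ ⟨512, -3, 243, 26, -21, 84, 61990, 0, 0, 0, 0, 0, 0⟩))))
    (.s0
    (.s1
    (.leaf (.box ⟨512, 0, -47, 15, -13, 92, 109731, 0, 0, 0, 0, 0, 0⟩ ⟨0, 0, 0, 0, 0, 0, 92172, 0, 0, 0, 0, 0, 0⟩ ⟨0, 0, 0, 0, 0, 0, 92172, 0, 0, 0, 0, 0, 0⟩ ⟨0, 0, 0, 0, 0, 0, 79458, 0, 0, 0, 0, 0, 0⟩ ⟨0, 0, 0, 0, 0, 0, 79458, 0, 0, 0, 0, 0, 0⟩ ⟨512, -1, -81, 21, -20, 88, 69825, 0, 0, 0, 0, 0, 0⟩))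
    (.leaf (.box ⟨886, 0, 305, 6, -4, 193, 458445, 0, 0, 0, 0, 0, 0⟩ ⟨512, -1, 182, 17, -10, 110, 92498, 0, 0, 0, 0, 0, 0⟩ ⟨512, -1, 182, 17, -10, 110, 92498, 0, 0, 0, 0, 0, 0⟩ ⟨512, -1, 189, 19, -11, 110, 82831, 0, 0, 0, 0, 0, 0⟩ ⟨512, -1, 189, 19, -11, 110, 82831, 0, 0, 0, 0, 0, 0⟩ ⟨512, 0, 192, 12, -7, 108, 135476, 0, 0, 0, 0, 0, 0⟩)))
    (.s2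
    (.leaf (.box ⟨512, 0, -264, 7, -4, 79, 129083, 0, 0, 0, 0, 0, 0⟩ ⟨0, 0, 0, 0, 0, 0, 107416, 0, 0, 0, 0, 0, 0⟩ ⟨0, 0, 0, 0, 0, 0, 107416, 0, 0, 0, 0, 0, 0⟩ ⟨0, 0, 0, 0, 0, 0, 91977, 0, 0, 0, 0, 0, 0⟩ ⟨0, 0, 0, 0, 0, 0, 91977, 0, 0, 0, 0, 0, 0⟩ ⟨512, -1, -261, 14, -7, 100, 80418, 0, 0, 0, 0, 0, 0⟩))
    (.leaf (.box ⟨512, 0, -419, 12, -9, 94, 123022, 0, 0, 0, 0, 961221906, 0⟩ ⟨0, 0, 0, 0, 0, 0, 101844, 0, 0, 0, 0, 0, 0⟩ ⟨0, 0, 0, 0, 0, 0, 101844, 0, 0, 0, 0, 0, 0⟩ ⟨0, 0, 0, 0, 0, 0, 86886, 0, 0, 0, 0, 0, 0⟩ ⟨0, 0, 0, 0, 0, 0, 86886, 0, 0, 0, 0, 0, 0⟩ ⟨512, 0, -385, 18, -15, 93, 75759, 0, 0, 0, 0, 4856282755, 0⟩))))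

/-- A piece of the tree. -/
noncomputable def tree6 : Tree LeafX :=
  .s0
    (.s2
    (.s1
    (.leaf (.box ⟨118, 1, -512, 8, 8, 36, 167024, 0, 0, 0, 0, 0, 4239398553⟩ ⟨0, 0, 0, 0, 0, 0, 139720, 0, 0, 0, 0, 0, 0⟩ ⟨0, 0, 0, 0, 0, 0, 139720, 0, 0, 0, 0, 0, 0⟩ ⟨0, 0, 0, 0, 0, 0, 120089, 0, 0, 0, 0, 0, 0⟩ ⟨0, 0, 0, 0, 0, 0, 120089, 0, 0, 0, 0, 0, 0⟩ ⟨121, 2, -512, 18, 17, 45, 105294, 0, 0, 0, 0, 0, 0⟩))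
    (.leaf (.box ⟨95, 0, -512, 8, 7, 38, 160694, 0, 0, 0, 0, 0, 0⟩ ⟨0, 0, 0, 0, 0, 0, 135764, 0, 0, 0, 0, 0, 0⟩ ⟨0, 0, 0, 0, 0, 0, 135764, 0, 0, 0, 0, 0, 0⟩ ⟨0, 0, 0, 0, 0, 0, 117530, 0, 0, 0, 0, 0, 0⟩ ⟨0, 0, 0, 0, 0, 0, 117530, 0, 0, 0, 0, 0, 0⟩ ⟨106, 0, -512, 19, 13, 49, 103613, 0, 0, 0, 0, 0, 0⟩)))
    (.s2
    (.s1
    (.leaf (.box ⟨127, 0, -512, 6, 6, 37, 161611, 0, 0, 0, 0, 0, 2425113804⟩ ⟨0, 0, 0, 0, 0, 0, 136282, 0, 0, 0, 0, 0, 0⟩ ⟨0, 0, 0, 0, 0, 0, 136282, 0, 0, 0, 0, 0, 0⟩ ⟨0, 0, 0, 0, 0, 0, 117817, 0, 0, 0, 0, 0, 0⟩ ⟨0, 0, 0, 0, 0, 0, 117817, 0, 0, 0, 0, 0, 0⟩ ⟨131, -1, -512, 13, 12, 46, 103758, 0, 0, 0, 0, 0, 0⟩))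
    (.leaf (.box ⟨107, -1, -512, 7, 5, 40, 157338, 0, 0, 0, 0, 0, 0⟩ ⟨0, 0, 0, 0, 0, 0, 133571, 0, 0, 0, 0, 0, 0⟩ ⟨0, 0, 0, 0, 0, 0, 133571, 0, 0, 0, 0, 0, 0⟩ ⟨0, 0, 0, 0, 0, 0, 116042, 0, 0, 0, 0, 0, 0⟩ ⟨0, 0, 0, 0, 0, 0, 116042, 0, 0, 0, 0, 0, 0⟩ ⟨95, -1, -512, 13, 8, 49, 102580, 0, 0, 0, 0, 0, 0⟩)))
    (.s2
    (.leaf (.box ⟨158, -1, -512, 7, 4, 40, 156314, 0, 0, 0, 0, 0, 251569510⟩ ⟨0, 0, 0, 0, 0, 0, 132802, 0, 0, 0, 0, 0, 0⟩ ⟨0, 0, 0, 0, 0, 0, 132802, 0, 0, 0, 0, 0, 0⟩ ⟨0, 0, 0, 0, 0, 0, 115439, 0, 0, 0, 0, 0, 0⟩ ⟨0, 0, 0, 0, 0, 0, 115439, 0, 0, 0, 0, 0, 0⟩ ⟨168, -2, -512, 12, 7, 49, 102090, 0, 0, 0, 0, 0, 0⟩))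
    (.s2
    (.leaf (.box ⟨189, -1, -527, 6, 4, 43, 155763, 0, 0, 0, 0, 586386512, 0⟩ ⟨0, 0, 0, 0, 0, 0, 132499, 0, 0, 0, 0, 0, 0⟩ ⟨0, 0, 0, 0, 0, 0, 132499, 0, 0, 0, 0, 0, 0⟩ ⟨0, 0, 0, 0, 0, 0, 115281, 0, 0, 0, 0, 0, 0⟩ ⟨0, 0, 0, 0, 0, 0, 115281, 0, 0, 0, 0, 0, 0⟩ ⟨175, -2, -512, 10, 6, 50, 102023, 0, 0, 0, 0, 0, 0⟩))
    (.leaf (.box ⟨182, -2, -521, 6, 3, 43, 154832, 0, 0, 0, 0, 1124548162, 4952378⟩ ⟨0, 0, 0, 0, 0, 0, 131911, 0, 0, 0, 0, 0, 0⟩ ⟨0, 0, 0, 0, 0, 0, 131911, 0, 0, 0, 0, 0, 0⟩ ⟨0, 0, 0, 0, 0, 0, 114901, 0, 0, 0, 0, 0, 0⟩ ⟨0, 0, 0, 0, 0, 0, 114901, 0, 0, 0, 0, 0, 0⟩ ⟨171, -2, -512, 9, 4, 50, 101776, 0, 0, 0, 0, 954508939, 0⟩))))))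
    (.s1
    (.leaf (.skip 0 8))
    (.s2
    (.s0
    (.leaf (.box ⟨105, 1, -614, 6, 10, 54, 262026, 0, 0, 0, 0, 0, 2149897658⟩ ⟨0, 0, 0, 0, 0, 0, 216257, 0, 0, 0, 0, 0, 0⟩ ⟨0, 0, 0, 0, 0, 0, 216257, 0, 0, 0, 0, 0, 0⟩ ⟨0, 0, 0, 0, 0, 0, 184099, 0, 0, 0, 0, 0, 0⟩ ⟨0, 0, 0, 0, 0, 0, 184099, 0, 0, 0, 0, 0, 0⟩ ⟨97, 2, -512, 12, 17, 55, 160267, 0, 0, 0, 0, 0, 0⟩))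
    (.leaf (.box ⟨113, 1, -580, 6, 11, 62, 343156, 0, 0, 0, 0, 0, 1749196132⟩ ⟨0, 0, 0, 0, 0, 0, 279577, 0, 0, 0, 0, 0, 0⟩ ⟨0, 0, 0, 0, 0, 0, 279577, 0, 0, 0, 0, 0, 0⟩ ⟨0, 0, 0, 0, 0, 0, 235875, 0, 0, 0, 0, 0, 0⟩ ⟨0, 0, 0, 0, 0, 0, 235875, 0, 0, 0, 0, 0, 0⟩ ⟨127, 3, -512, 12, 20, 64, 203988, 0, 0, 0, 0, 0, 0⟩)))
    (.s2
    (.s0
    (.leaf (.box ⟨542, 0, -2574, 6, 8, 240, 1004973, 0, 0, 0, 0, 0, 17699318329⟩ ⟨143, 0, -660, 6, 11, 65, 215890, 0, 0, 0, 0, 0, 0⟩ ⟨143, 0, -660, 6, 11, 65, 215890, 0, 0, 0, 0, 0, 0⟩ ⟨111, 0, -528, 6, 10, 55, 193786, 0, 0, 0, 0, 0, 0⟩ ⟨111, 0, -528, 6, 10, 55, 193786, 0, 0, 0, 0, 0, 0⟩ ⟨158, 0, -743, 6, 9, 83, 317258, 0, 0, 0, 0, 0, 0⟩))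
    (.leaf (.box ⟨800, 0, -3213, 6, 12, 374, 1293440, 0, 0, 0, 0, 0, 33985178360⟩ ⟨166, 0, -622, 6, 11, 76, 277119, 0, 0, 0, 7078087, 0, 0⟩ ⟨166, 0, -622, 6, 11, 76, 277119, 0, 0, 0, 7078087, 0, 0⟩ ⟨143, 0, -512, 6, 11, 66, 248208, 0, 0, 0, 0, 0, 0⟩ ⟨143, 0, -512, 6, 11, 66, 248208, 0, 0, 0, 0, 0, 0⟩ ⟨234, 0, -755, 6, 11, 103, 402629, 0, 0, 0, 0, 0, 0⟩)))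
    (.s2
    (.leaf (.box ⟨357, -1, -805, 6, 10, 93, 253977, 0, 0, 0, 0, 0, 0⟩ ⟨0, 0, 0, 0, 0, 0, 216063, 0, 0, 0, 0, 0, 0⟩ ⟨0, 0, 0, 0, 0, 0, 216063, 0, 0, 0, 0, 0, 0⟩ ⟨0, 0, 0, 0, 0, 0, 187998, 0, 0, 0, 0, 0, 0⟩ ⟨0, 0, 0, 0, 0, 0, 187998, 0, 0, 0, 0, 0, 0⟩ ⟨208, -1, -527, 6, 11, 70, 166385, 0, 0, 0, 0, 0, 0⟩))
    (.leaf (.box ⟨285, -2, -512, 7, 4, 66, 252994, 0, 0, 0, 0, 2341880789, 0⟩ ⟨0, 0, 0, 0, 0, 0, 216593, 0, 0, 0, 0, 0, 0⟩ ⟨0, 0, 0, 0, 0, 0, 216593, 0, 0, 0, 0, 0, 0⟩ ⟨0, 0, 0, 0, 0, 0, 189349, 0, 0, 0, 0, 0, 0⟩ ⟨0, 0, 0, 0, 0, 0, 189349, 0, 0, 0, 0, 0, 0⟩ ⟨238, -2, -512, 11, 7, 72, 168192, 0, 0, 0, 0, 0, 0⟩))))))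

/-- A piece of the tree. -/
noncomputable def tree7 : Tree LeafX :=
  .s0
    (.s1
    (.s2
    (.leaf (.box ⟨108, 0, -512, 9, 5, 41, 155719, 0, 0, 0, 0, 0, 0⟩ ⟨0, 0, 0, 0, 0, 0, 131356, 0, 0, 0, 0, 0, 0⟩ ⟨0, 0, 0, 0, 0, 0, 131356, 0, 0, 0, 0, 0, 0⟩ ⟨0, 0, 0, 0, 0, 0, 113584, 0, 0, 0, 0, 0, 0⟩ ⟨0, 0, 0, 0, 0, 0, 113584, 0, 0, 0, 0, 0, 0⟩ ⟨139, -1, -512, 19, 10, 53, 100048, 0, 0, 0, 0, 0, 0⟩))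
    (.s0
    (.leaf (.box ⟨103, -1, -512, 7, 0, 44, 152860, 0, 0, 0, 0, 1008988419, 0⟩ ⟨0, 0, 0, 0, 0, 0, 129421, 0, 0, 0, 0, 0, 0⟩ ⟨0, 0, 0, 0, 0, 0, 129421, 0, 0, 0, 0, 0, 0⟩ ⟨0, 0, 0, 0, 0, 0, 112215, 0, 0, 0, 0, 0, 0⟩ ⟨0, 0, 0, 0, 0, 0, 112215, 0, 0, 0, 0, 0, 0⟩ ⟨99, -2, -512, 11, 0, 52, 99046, 0, 0, 0, 0, 1256377719, 0⟩))
    (.s0
    (.s2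
    (.leaf (.box ⟨123, -1, -816, 6, 5, 68, 190654, 0, 0, 0, 0, 0, 0⟩ ⟨0, 0, 0, 0, 0, 0, 160677, 0, 0, 0, 0, 0, 0⟩ ⟨0, 0, 0, 0, 0, 0, 160677, 0, 0, 0, 0, 0, 0⟩ ⟨0, 0, 0, 0, 0, 0, 138845, 0, 0, 0, 0, 0, 0⟩ ⟨0, 0, 0, 0, 0, 0, 138845, 0, 0, 0, 0, 0, 0⟩ ⟨65, -1, -512, 7, 5, 52, 122236, 0, 0, 0, 0, 0, 0⟩))
    (.leaf (.box ⟨148, -1, -876, 6, 2, 79, 190750, 0, 0, 0, 0, 2524890989, 0⟩ ⟨0, 0, 0, 0, 0, 0, 161486, 0, 0, 0, 0, 0, 0⟩ ⟨0, 0, 0, 0, 0, 0, 161486, 0, 0, 0, 0, 0, 0⟩ ⟨0, 0, 0, 0, 0, 0, 140007, 0, 0, 0, 0, 0, 0⟩ ⟨0, 0, 0, 0, 0, 0, 140007, 0, 0, 0, 0, 0, 0⟩ ⟨69, -1, -545, 6, 2, 56, 123570, 0, 0, 0, 0, 1407704943, 0⟩)))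
    (.s0
    (.s2
    (.leaf (.box ⟨128, -1, -968, 6, 7, 83, 214140, 0, 0, 0, 0, 0, 0⟩ ⟨0, 0, 0, 0, 0, 0, 180255, 0, 0, 0, 0, 0, 0⟩ ⟨0, 0, 0, 0, 0, 0, 180255, 0, 0, 0, 0, 0, 0⟩ ⟨0, 0, 0, 0, 0, 0, 155629, 0, 0, 0, 0, 0, 0⟩ ⟨0, 0, 0, 0, 0, 0, 155629, 0, 0, 0, 0, 0, 0⟩ ⟨63, -1, -524, 6, 7, 54, 136922, 0, 0, 0, 0, 0, 0⟩))
    (.leaf (.box ⟨160, -1, -1046, 6, 4, 97, 214960, 0, 0, 0, 0, 3058936500, 0⟩ ⟨0, 0, 0, 0, 0, 0, 182081, 0, 0, 0, 0, 0, 0⟩ ⟨0, 0, 0, 0, 0, 0, 182081, 0, 0, 0, 0, 0, 0⟩ ⟨0, 0, 0, 0, 0, 0, 157926, 0, 0, 0, 0, 0, 0⟩ ⟨0, 0, 0, 0, 0, 0, 157926, 0, 0, 0, 0, 0, 0⟩ ⟨77, -1, -642, 6, 4, 68, 139428, 0, 0, 0, 0, 491810158, 0⟩)))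
    (.s2
    (.leaf (.box ⟨123, -1, -948, 6, 7, 83, 227552, 0, 0, 0, 0, 0, 0⟩ ⟨0, 0, 0, 0, 0, 0, 191417, 0, 0, 0, 0, 0, 0⟩ ⟨0, 0, 0, 0, 0, 0, 191417, 0, 0, 0, 0, 0, 0⟩ ⟨0, 0, 0, 0, 0, 0, 165186, 0, 0, 0, 0, 0, 0⟩ ⟨0, 0, 0, 0, 0, 0, 165186, 0, 0, 0, 0, 0, 0⟩ ⟨66, -1, -551, 6, 8, 58, 145277, 0, 0, 0, 0, 0, 0⟩))
    (.leaf (.box ⟨160, -1, -985, 6, 5, 95, 228576, 0, 0, 0, 0, 2422531259, 0⟩ ⟨0, 0, 0, 0, 0, 0, 193658, 0, 0, 0, 0, 0, 0⟩ ⟨0, 0, 0, 0, 0, 0, 193658, 0, 0, 0, 0, 0, 0⟩ ⟨0, 0, 0, 0, 0, 0, 167995, 0, 0, 0, 0, 0, 0⟩ ⟨0, 0, 0, 0, 0, 0, 167995, 0, 0, 0, 0, 0, 0⟩ ⟨79, -1, -634, 6, 5, 69, 148337, 0, 0, 0, 0, 0, 0⟩)))))))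
    (.s2
    (.leaf (.box ⟨155, 0, -512, 8, 4, 44, 151254, 0, 0, 0, 0, 0, 0⟩ ⟨0, 0, 0, 0, 0, 0, 127044, 0, 0, 0, 0, 0, 0⟩ ⟨0, 0, 0, 0, 0, 0, 127044, 0, 0, 0, 0, 0, 0⟩ ⟨0, 0, 0, 0, 0, 0, 109514, 0, 0, 0, 0, 0, 0⟩ ⟨0, 0, 0, 0, 0, 0, 109514, 0, 0, 0, 0, 0, 0⟩ ⟨178, -1, -512, 18, 7, 58, 96235, 0, 0, 0, 0, 0, 0⟩))
    (.leaf (.box ⟨118, -1, -512, 9, 0, 49, 149560, 0, 0, 0, 0, 939819593, 0⟩ ⟨0, 0, 0, 0, 0, 0, 125669, 0, 0, 0, 0, 0, 0⟩ ⟨0, 0, 0, 0, 0, 0, 125669, 0, 0, 0, 0, 0, 0⟩ ⟨0, 0, 0, 0, 0, 0, 108359, 0, 0, 0, 0, 0, 0⟩ ⟨0, 0, 0, 0, 0, 0, 108359, 0, 0, 0, 0, 0, 0⟩ ⟨132, -1, -512, 15, 0, 56, 95240, 0, 0, 0, 0, 1256940105, 0⟩))))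
    (.s2
    (.s0
    (.leaf (.box ⟨91, 0, -512, 7, 7, 47, 227396, 0, 0, 0, 0, 0, 0⟩ ⟨0, 0, 0, 0, 0, 0, 189311, 0, 0, 0, 0, 0, 0⟩ ⟨0, 0, 0, 0, 0, 0, 189311, 0, 0, 0, 0, 0, 0⟩ ⟨0, 0, 0, 0, 0, 0, 162153, 0, 0, 0, 0, 0, 0⟩ ⟨0, 0, 0, 0, 0, 0, 162153, 0, 0, 0, 0, 0, 0⟩ ⟨91, 1, -512, 14, 14, 57, 141809, 0, 0, 0, 0, 0, 0⟩))
    (.leaf (.box ⟨98, 1, -512, 7, 8, 56, 295091, 0, 0, 0, 0, 0, 0⟩ ⟨0, 0, 0, 0, 0, 0, 242847, 0, 0, 0, 0, 0, 0⟩ ⟨0, 0, 0, 0, 0, 0, 242847, 0, 0, 0, 0, 0, 0⟩ ⟨0, 0, 0, 0, 0, 0, 206319, 0, 0, 0, 0, 0, 0⟩ ⟨0, 0, 0, 0, 0, 0, 206319, 0, 0, 0, 0, 0, 0⟩ ⟨106, 2, -512, 14, 16, 65, 179343, 0, 0, 0, 0, 0, 0⟩)))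
    (.s0
    (.s2
    (.leaf (.box ⟨142, 0, -604, 6, 6, 59, 229147, 0, 0, 0, 0, 0, 0⟩ ⟨0, 0, 0, 0, 0, 0, 192432, 0, 0, 0, 0, 0, 0⟩ ⟨0, 0, 0, 0, 0, 0, 192432, 0, 0, 0, 0, 0, 0⟩ ⟨0, 0, 0, 0, 0, 0, 165858, 0, 0, 0, 0, 0, 0⟩ ⟨0, 0, 0, 0, 0, 0, 165858, 0, 0, 0, 0, 0, 0⟩ ⟨100, -1, -512, 10, 9, 59, 145732, 0, 0, 0, 0, 0, 0⟩))
    (.s2
    (.leaf (.box ⟨174, -1, -760, 6, 5, 80, 233826, 0, 0, 0, 0, 0, 0⟩ ⟨0, 0, 0, 0, 0, 0, 197172, 0, 0, 0, 0, 0, 0⟩ ⟨0, 0, 0, 0, 0, 0, 197172, 0, 0, 0, 0, 0, 0⟩ ⟨0, 0, 0, 0, 0, 0, 170453, 0, 0, 0, 0, 0, 0⟩ ⟨0, 0, 0, 0, 0, 0, 170453, 0, 0, 0, 0, 0, 0⟩ ⟨99, -1, -517, 6, 6, 61, 150110, 0, 0, 0, 0, 0, 0⟩))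
    (.leaf (.box ⟨233, -1, -915, 6, 4, 103, 237185, 0, 0, 0, 0, 4047074233, 0⟩ ⟨0, 0, 0, 0, 0, 0, 200380, 0, 0, 0, 0, 0, 0⟩ ⟨0, 0, 0, 0, 0, 0, 200380, 0, 0, 0, 0, 0, 0⟩ ⟨0, 0, 0, 0, 0, 0, 173463, 0, 0, 0, 0, 0, 0⟩ ⟨0, 0, 0, 0, 0, 0, 173463, 0, 0, 0, 0, 0, 0⟩ ⟨112, -1, -558, 6, 4, 68, 152921, 0, 0, 0, 0, 946011237, 0⟩))))
    (.s2
    (.leaf (.box ⟨528, 0, -1998, 6, 5, 240, 1232455, 0, 0, 0, 0, 0, 0⟩ ⟨130, 0, -512, 7, 7, 64, 247688, 0, 0, 0, 0, 0, 0⟩ ⟨130, 0, -512, 7, 7, 64, 247688, 0, 0, 0, 0, 0, 0⟩ ⟨125, 0, -512, 7, 8, 66, 221492, 0, 0, 0, 0, 0, 0⟩ ⟨125, 0, -512, 7, 8, 66, 221492, 0, 0, 0, 0, 0, 0⟩ ⟨160, 0, -637, 6, 7, 86, 361783, 0, 0, 0, 0, 0, 0⟩))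
    (.leaf (.box ⟨264, -1, -615, 6, 4, 87, 301264, 0, 0, 0, 0, 693949404, 0⟩ ⟨0, 0, 0, 0, 0, 0, 254392, 0, 0, 0, 0, 0, 0⟩ ⟨0, 0, 0, 0, 0, 0, 254392, 0, 0, 0, 0, 0, 0⟩ ⟨0, 0, 0, 0, 0, 0, 220141, 0, 0, 0, 0, 0, 0⟩ ⟨0, 0, 0, 0, 0, 0, 220141, 0, 0, 0, 0, 0, 0⟩ ⟨164, -1, -512, 7, 5, 75, 194018, 0, 0, 0, 0, 0, 0⟩)))))

/-- A piece of the tree. -/
noncomputable def tree8 : Tree LeafX :=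
  .s0
    (.s2
    (.leaf (.box ⟨414, -1, -512, 13, 2, 57, 140626, 0, 0, 0, 0, 0, 0⟩ ⟨0, 0, 0, 0, 0, 0, 117493, 0, 0, 0, 0, 0, 0⟩ ⟨0, 0, 0, 0, 0, 0, 117493, 0, 0, 0, 0, 0, 0⟩ ⟨0, 0, 0, 0, 0, 0, 100895, 0, 0, 0, 0, 0, 0⟩ ⟨0, 0, 0, 0, 0, 0, 100895, 0, 0, 0, 0, 0, 0⟩ ⟨385, -2, -512, 26, 3, 75, 88406, 0, 0, 0, 0, 0, 0⟩))
    (.s1
    (.leaf (.box ⟨221, 0, -512, 9, -2, 56, 143876, 0, 0, 0, 0, 1346397627, 0⟩ ⟨0, 0, 0, 0, 0, 0, 119040, 0, 0, 0, 0, 0, 0⟩ ⟨0, 0, 0, 0, 0, 0, 119040, 0, 0, 0, 0, 0, 0⟩ ⟨0, 0, 0, 0, 0, 0, 101516, 0, 0, 0, 0, 0, 0⟩ ⟨0, 0, 0, 0, 0, 0, 101516, 0, 0, 0, 0, 0, 0⟩ ⟨228, 0, -512, 15, -3, 62, 88489, 0, 0, 0, 0, 1629771340, 0⟩))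
    (.leaf (.box ⟨300, 0, -512, 8, -2, 64, 140596, 0, 0, 0, 0, 0, 0⟩ ⟨0, 0, 0, 0, 0, 0, 116253, 0, 0, 0, 0, 0, 0⟩ ⟨0, 0, 0, 0, 0, 0, 116253, 0, 0, 0, 0, 0, 0⟩ ⟨0, 0, 0, 0, 0, 0, 99095, 0, 0, 0, 0, 0, 0⟩ ⟨0, 0, 0, 0, 0, 0, 99095, 0, 0, 0, 0, 0, 0⟩ ⟨310, 0, -512, 13, -3, 71, 86350, 0, 0, 0, 0, 2186370538, 0⟩))))
    (.s2
    (.leaf (.box ⟨161, 0, -512, 11, 6, 56, 185516, 0, 0, 0, 0, 0, 0⟩ ⟨0, 0, 0, 0, 0, 0, 157954, 0, 0, 0, 0, 0, 0⟩ ⟨0, 0, 0, 0, 0, 0, 157954, 0, 0, 0, 0, 0, 0⟩ ⟨0, 0, 0, 0, 0, 0, 137522, 0, 0, 0, 0, 0, 0⟩ ⟨0, 0, 0, 0, 0, 0, 137522, 0, 0, 0, 0, 0, 0⟩ ⟨122, -1, -512, 20, 11, 67, 121770, 0, 0, 0, 0, 0, 0⟩))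
    (.s2
    (.leaf (.box ⟨172, 0, -512, 6, 4, 61, 200777, 0, 0, 0, 0, 0, 0⟩ ⟨0, 0, 0, 0, 0, 0, 169266, 0, 0, 0, 0, 0, 0⟩ ⟨0, 0, 0, 0, 0, 0, 169266, 0, 0, 0, 0, 0, 0⟩ ⟨0, 0, 0, 0, 0, 0, 146304, 0, 0, 0, 0, 0, 0⟩ ⟨0, 0, 0, 0, 0, 0, 146304, 0, 0, 0, 0, 0, 0⟩ ⟨130, -1, -512, 12, 6, 68, 128827, 0, 0, 0, 0, 0, 0⟩))
    (.leaf (.box ⟨190, 0, -556, 6, 2, 70, 215346, 0, 0, 0, 0, 1438147450, 0⟩ ⟨0, 0, 0, 0, 0, 0, 179911, 0, 0, 0, 0, 0, 0⟩ ⟨0, 0, 0, 0, 0, 0, 179911, 0, 0, 0, 0, 0, 0⟩ ⟨0, 0, 0, 0, 0, 0, 154490, 0, 0, 0, 0, 0, 0⟩ ⟨0, 0, 0, 0, 0, 0, 154490, 0, 0, 0, 0, 0, 0⟩ ⟨121, 0, -512, 9, 3, 68, 135363, 0, 0, 0, 0, 1281986790, 0⟩))))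

/-- A piece of the tree. -/
noncomputable def tree9 : Tree LeafX :=
  .s1
    (.s2
    (.leaf (.box ⟨512, -3, 4, 12, 2, 72, 117443, 0, 0, 0, 0, 0, 0⟩ ⟨0, 0, 0, 0, 0, 0, 100462, 0, 0, 0, 0, 0, 0⟩ ⟨0, 0, 0, 0, 0, 0, 100462, 0, 0, 0, 0, 0, 0⟩ ⟨0, 0, 0, 0, 0, 0, 87772, 0, 0, 0, 0, 0, 0⟩ ⟨0, 0, 0, 0, 0, 0, 87772, 0, 0, 0, 0, 0, 0⟩ ⟨512, -5, 102, 24, 5, 114, 77927, 0, 0, 0, 0, 0, 0⟩))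
    (.s0
    (.s0
    (.leaf (.box ⟨512, -4, 326, 9, 1, 78, 110872, 0, 0, 0, 0, 0, 0⟩ ⟨0, 0, 0, 0, 0, 0, 93110, 0, 0, 0, 0, 0, 0⟩ ⟨0, 0, 0, 0, 0, 0, 93110, 0, 0, 0, 0, 0, 0⟩ ⟨0, 0, 0, 0, 0, 0, 80254, 0, 0, 0, 0, 0, 0⟩ ⟨0, 0, 0, 0, 0, 0, 80254, 0, 0, 0, 0, 0, 0⟩ ⟨404, -6, 512, 18, 2, 142, 70516, 0, 0, 0, 0, 0, 0⟩))
    (.leaf (.box ⟨1185, -2, 1059, 6, 2, 393, 456961, 0, 0, 0, 0, 0, 0⟩ ⟨446, -4, 512, 11, 4, 189, 106688, 0, 0, 0, 0, 0, 0⟩ ⟨446, -4, 512, 11, 4, 189, 106688, 0, 0, 0, 0, 0, 0⟩ ⟨333, -4, 512, 11, 4, 187, 95101, 0, 0, 0, 0, 0, 0⟩ ⟨333, -4, 512, 11, 4, 187, 95101, 0, 0, 0, 0, 0, 0⟩ ⟨247, -2, 512, 7, 3, 186, 154865, 0, 0, 0, 0, 0, 0⟩)))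
    (.s1
    (.leaf (.box ⟨512, -2, 116, 9, 2, 135, 135390, 0, 0, 0, 0, 0, 0⟩ ⟨0, 0, 0, 0, 0, 0, 113698, 0, 0, 0, 0, 0, 0⟩ ⟨0, 0, 0, 0, 0, 0, 113698, 0, 0, 0, 0, 0, 0⟩ ⟨0, 0, 0, 0, 0, 0, 97996, 0, 0, 0, 0, 0, 0⟩ ⟨0, 0, 0, 0, 0, 0, 97996, 0, 0, 0, 0, 0, 0⟩ ⟨512, -3, 153, 16, 5, 179, 86105, 0, 0, 0, 0, 0, 0⟩))
    (.leaf (.box ⟨512, -9, 194, 13, 5, 184, 133736, 0, 0, 0, 0, 0, 0⟩ ⟨0, 0, 0, 0, 0, 0, 115081, 0, 0, 0, 0, 0, 0⟩ ⟨0, 0, 0, 0, 0, 0, 115081, 0, 0, 0, 0, 0, 0⟩ ⟨0, 0, 0, 0, 0, 0, 100993, 0, 0, 0, 0, 0, 0⟩ ⟨0, 0, 0, 0, 0, 0, 100993, 0, 0, 0, 0, 0, 0⟩ ⟨512, -11, 179, 21, 10, 224, 89978, 0, 0, 0, 0, 0, 0⟩)))))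
    (.s1
    (.s0
    (.s2
    (.leaf (.box ⟨512, -7, 141, 11, 3, 64, 116457, 0, 0, 0, 0, 0, 0⟩ ⟨0, 0, 0, 0, 0, 0, 100653, 0, 0, 0, 0, 0, 0⟩ ⟨0, 0, 0, 0, 0, 0, 100653, 0, 0, 0, 0, 0, 0⟩ ⟨0, 0, 0, 0, 0, 0, 88625, 0, 0, 0, 0, 0, 0⟩ ⟨0, 0, 0, 0, 0, 0, 88625, 0, 0, 0, 0, 0, 0⟩ ⟨512, -12, 229, 22, 6, 91, 79165, 0, 0, 0, 0, 0, 0⟩))
    (.leaf (.box ⟨512, -9, 305, 10, 0, 58, 110857, 0, 0, 0, 0, 0, 0⟩ ⟨0, 0, 0, 0, 0, 0, 96920, 0, 0, 0, 0, 0, 0⟩ ⟨0, 0, 0, 0, 0, 0, 96920, 0, 0, 0, 0, 0, 0⟩ ⟨0, 0, 0, 0, 0, 0, 86096, 0, 0, 0, 0, 0, 0⟩ ⟨0, 0, 0, 0, 0, 0, 86096, 0, 0, 0, 0, 0, 0⟩ ⟨512, -11, 350, 15, 2, 85, 77446, 0, 0, 0, 0, 0, 0⟩)))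
    (.s2
    (.leaf (.box ⟨512, -20, -259, 25, 20, 174, 139674, 0, 0, 0, 0, 0, 0⟩ ⟨0, 0, 0, 0, 0, 0, 122264, 0, 0, 0, 0, 0, 0⟩ ⟨0, 0, 0, 0, 0, 0, 122264, 0, 0, 0, 0, 0, 0⟩ ⟨0, 0, 0, 0, 0, 0, 108713, 0, 0, 0, 0, 0, 0⟩ ⟨0, 0, 0, 0, 0, 0, 108713, 0, 0, 0, 0, 0, 0⟩ ⟨512, -25, -112, 42, 37, 246, 97865, 0, 0, 0, 0, 0, 0⟩))
    (.leaf (.box ⟨512, -22, 117, 18, 5, 133, 132855, 0, 0, 0, 0, 0, 0⟩ ⟨0, 0, 0, 0, 0, 0, 117168, 0, 0, 0, 0, 0, 0⟩ ⟨0, 0, 0, 0, 0, 0, 117168, 0, 0, 0, 0, 0, 0⟩ ⟨0, 0, 0, 0, 0, 0, 104794, 0, 0, 0, 0, 0, 0⟩ ⟨0, 0, 0, 0, 0, 0, 104794, 0, 0, 0, 0, 0, 0⟩ ⟨512, -25, 84, 30, 13, 198, 94783, 0, 0, 0, 0, 0, 0⟩))))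
    (.s0
    (.s2
    (.leaf (.box ⟨512, -10, 218, 26, 13, 63, 127664, 0, 0, 0, 0, 0, 0⟩ ⟨0, 0, 0, 0, 0, 0, 104033, 0, 0, 0, 0, 0, 0⟩ ⟨0, 0, 0, 0, 0, 0, 104033, 0, 0, 0, 0, 0, 0⟩ ⟨0, 0, 0, 0, 0, 0, 87783, 0, 0, 0, 0, 0, 0⟩ ⟨0, 0, 0, 0, 0, 0, 87783, 0, 0, 0, 0, 0, 0⟩ ⟨512, -11, 151, 33, 15, 43, 75924, 0, 0, 0, 0, 0, 0⟩))
    (.leaf (.box ⟨512, -17, 377, 25, 2, 53, 123950, 0, 0, 0, 0, 0, 0⟩ ⟨0, 0, 0, 0, 0, 0, 102969, 0, 0, 0, 0, 0, 0⟩ ⟨0, 0, 0, 0, 0, 0, 102969, 0, 0, 0, 0, 0, 0⟩ ⟨0, 0, 0, 0, 0, 0, 88063, 0, 0, 0, 0, 0, 0⟩ ⟨0, 0, 0, 0, 0, 0, 88063, 0, 0, 0, 0, 0, 0⟩ ⟨512, -16, 260, 28, 4, 41, 76926, 0, 0, 0, 0, 0, 0⟩)))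
    (.s2
    (.leaf (.box ⟨512, -11, -312, 10, 9, 121, 476946, 0, 0, 0, 0, 0, 0⟩ ⟨512, -35, -264, 38, 37, 126, 118829, 0, 0, 0, 0, 0, 0⟩ ⟨512, -35, -264, 38, 37, 126, 118829, 0, 0, 0, 0, 0, 0⟩ ⟨512, -33, -202, 41, 40, 129, 110829, 0, 0, 0, 0, 0, 0⟩ ⟨512, -33, -202, 41, 40, 129, 110829, 0, 0, 0, 0, 0, 0⟩ ⟨512, -17, -141, 25, 24, 133, 186505, 0, 0, 0, 0, 0, 0⟩))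
    (.leaf (.box ⟨512, -37, 33, 24, 8, 93, 131694, 0, 0, 0, 0, 0, 0⟩ ⟨0, 0, 0, 0, 0, 0, 116023, 0, 0, 0, 0, 0, 0⟩ ⟨0, 0, 0, 0, 0, 0, 116023, 0, 0, 0, 0, 0, 0⟩ ⟨0, 0, 0, 0, 0, 0, 103684, 0, 0, 0, 0, 0, 0⟩ ⟨0, 0, 0, 0, 0, 0, 103684, 0, 0, 0, 0, 0, 0⟩ ⟨512, -30, 36, 34, 14, 117, 93717, 0, 0, 0, 0, 0, 0⟩)))))

/-- A piece of the tree. -/
noncomputable def tree10 : Tree LeafX :=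
  .s1
    (.s0
    (.leaf (.box ⟨512, -4, -497, 8, 3, 97, 489329, 0, 0, 0, 0, 0, 0⟩ ⟨478, -16, -512, 32, 14, 115, 124148, 0, 0, 0, 0, 0, 0⟩ ⟨478, -16, -512, 32, 14, 115, 124148, 0, 0, 0, 0, 0, 0⟩ ⟨508, -17, -512, 38, 17, 134, 112639, 0, 0, 0, 0, 0, 0⟩ ⟨508, -17, -512, 38, 17, 134, 112639, 0, 0, 0, 0, 0, 0⟩ ⟨512, -10, -474, 24, 10, 145, 186231, 0, 0, 0, 0, 0, 0⟩))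
    (.leaf (.box ⟨216, -3, -718, 6, 5, 86, 544240, 0, 0, 0, 0, 0, 0⟩ ⟨162, -7, -512, 17, 14, 69, 152209, 0, 0, 0, 0, 0, 0⟩ ⟨162, -7, -512, 17, 14, 69, 152209, 0, 0, 0, 0, 0, 0⟩ ⟨183, -8, -512, 22, 15, 77, 143790, 0, 0, 0, 0, 0, 0⟩ ⟨183, -8, -512, 22, 15, 77, 143790, 0, 0, 0, 0, 0, 0⟩ ⟨222, -5, -512, 15, 10, 88, 243107, 0, 0, 0, 0, 0, 0⟩)))
    (.s1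
    (.s0
    (.s2
    (.leaf (.box ⟨405, -8, -512, 7, 6, 113, 479903, 0, 0, 0, 0, 0, 0⟩ ⟨357, -20, -512, 22, 24, 133, 136738, 0, 0, 0, 0, 0, 0⟩ ⟨357, -20, -512, 22, 24, 133, 136738, 0, 0, 0, 0, 0, 0⟩ ⟨332, -19, -512, 24, 27, 157, 133727, 0, 0, 0, 0, 0, 0⟩ ⟨332, -19, -512, 24, 27, 157, 133727, 0, 0, 0, 0, 0, 0⟩ ⟨310, -11, -512, 16, 17, 186, 234853, 0, 0, 0, 0, 0, 0⟩))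
    (.leaf (.box ⟨512, -12, -487, 8, 4, 130, 421813, 0, 0, 0, 0, 0, 0⟩ ⟨435, -29, -512, 23, 16, 142, 127289, 0, 0, 0, 0, 0, 0⟩ ⟨435, -29, -512, 23, 16, 142, 127289, 0, 0, 0, 0, 0, 0⟩ ⟨386, -23, -512, 22, 16, 150, 126259, 0, 0, 0, 0, 0, 0⟩ ⟨386, -23, -512, 22, 16, 150, 126259, 0, 0, 0, 0, 0, 0⟩ ⟨353, -10, -512, 12, 9, 157, 226307, 0, 0, 0, 0, 0, 0⟩)))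
    (.s2
    (.leaf (.box ⟨200, -6, -949, 6, 11, 133, 515142, 0, 0, 0, 0, 0, 0⟩ ⟨106, -9, -512, 11, 20, 82, 157705, 0, 0, 0, 0, 0, 0⟩ ⟨106, -9, -512, 11, 20, 82, 157705, 0, 0, 0, 0, 0, 0⟩ ⟨121, -10, -512, 14, 21, 96, 157753, 0, 0, 0, 0, 0, 0⟩ ⟨121, -10, -512, 14, 21, 96, 157753, 0, 0, 0, 0, 0, 0⟩ ⟨160, -6, -512, 9, 13, 111, 280026, 0, 0, 0, 0, 0, 0⟩))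
    (.leaf (.box ⟨235, -8, -979, 6, 9, 132, 491965, 0, 0, 0, 0, 0, 0⟩ ⟨123, -11, -512, 10, 15, 78, 155697, 0, 0, 0, 0, 0, 0⟩ ⟨123, -11, -512, 10, 15, 78, 155697, 0, 0, 0, 0, 0, 0⟩ ⟨125, -9, -512, 11, 14, 87, 157628, 0, 0, 0, 0, 0, 0⟩ ⟨125, -9, -512, 11, 14, 87, 157628, 0, 0, 0, 0, 0, 0⟩ ⟨141, -4, -557, 6, 9, 103, 284677, 0, 0, 0, 0, 0, 0⟩))))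
    (.s0
    (.s0
    (.leaf (.box ⟨470, -30, -512, 17, 10, 129, 388764, 0, 0, 0, 0, 0, 0⟩ ⟨359, -72, -512, 54, 33, 145, 123929, 0, 0, 0, 0, 0, 0⟩ ⟨359, -72, -512, 54, 33, 145, 123929, 0, 0, 0, 0, 0, 0⟩ ⟨295, -60, -512, 55, 35, 167, 130595, 0, 0, 0, 0, 0, 0⟩ ⟨295, -60, -512, 55, 35, 167, 130595, 0, 0, 0, 0, 0, 0⟩ ⟨249, -29, -512, 32, 20, 190, 244430, 0, 0, 0, 0, 0, 0⟩))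
    (.s2
    (.s2
    (.leaf (.box ⟨122, -16, -512, 12, 26, 83, 163123, 0, 0, 0, 0, 0, 0⟩ ⟨0, 0, 0, 0, 0, 0, 147177, 0, 0, 0, 0, 0, 0⟩ ⟨0, 0, 0, 0, 0, 0, 147177, 0, 0, 0, 0, 0, 0⟩ ⟨0, 0, 0, 0, 0, 0, 134071, 0, 0, 0, 0, 0, 0⟩ ⟨0, 0, 0, 0, 0, 0, 134071, 0, 0, 0, 0, 0, 0⟩ ⟨139, -22, -512, 27, 48, 140, 123108, 0, 0, 0, 0, 0, 0⟩))
    (.leaf (.box ⟨204, -11, -617, 6, 11, 112, 433986, 0, 0, 0, 0, 0, 0⟩ ⟨140, -26, -512, 18, 28, 106, 142414, 0, 0, 0, 0, 0, 0⟩ ⟨140, -26, -512, 18, 28, 106, 142414, 0, 0, 0, 0, 0, 0⟩ ⟨120, -20, -512, 18, 29, 122, 150693, 0, 0, 0, 0, 0, 0⟩ ⟨120, -20, -512, 18, 29, 122, 150693, 0, 0, 0, 0, 0, 0⟩ ⟨128, -9, -512, 10, 17, 138, 276923, 0, 0, 0, 0, 0, 0⟩)))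
    (.s1
    (.leaf (.box ⟨247, -13, -634, 6, 7, 119, 415955, 0, 0, 0, 0, 0, 0⟩ ⟨158, -22, -512, 15, 17, 107, 140568, 0, 0, 0, 0, 0, 0⟩ ⟨158, -22, -512, 15, 17, 107, 140568, 0, 0, 0, 0, 0, 0⟩ ⟨147, -16, -512, 14, 16, 117, 148931, 0, 0, 0, 0, 0, 0⟩ ⟨147, -16, -512, 14, 16, 117, 148931, 0, 0, 0, 0, 0, 0⟩ ⟨146, -8, -512, 8, 8, 126, 278607, 0, 0, 0, 0, 0, 0⟩))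
    (.leaf (.box ⟨181, -37, -512, 16, 18, 81, 149628, 0, 0, 0, 0, 0, 0⟩ ⟨0, 0, 0, 0, 0, 0, 138547, 0, 0, 0, 0, 0, 0⟩ ⟨0, 0, 0, 0, 0, 0, 138547, 0, 0, 0, 0, 0, 0⟩ ⟨0, 0, 0, 0, 0, 0, 128994, 0, 0, 0, 0, 0, 0⟩ ⟨0, 0, 0, 0, 0, 0, 128994, 0, 0, 0, 0, 0, 0⟩ ⟨128, -21, -512, 22, 23, 121, 120673, 0, 0, 0, 0, 0, 0⟩)))))
    (.s2
    (.leaf (.box ⟨105, -8, -706, 6, 12, 109, 454873, 0, 0, 0, 0, 0, 0⟩ ⟨69, -14, -512, 13, 26, 89, 159708, 0, 0, 0, 0, 0, 0⟩ ⟨69, -14, -512, 13, 26, 89, 159708, 0, 0, 0, 0, 0, 0⟩ ⟨98, -14, -512, 15, 26, 102, 168016, 0, 0, 0, 0, 0, 0⟩ ⟨98, -14, -512, 15, 26, 102, 168016, 0, 0, 0, 0, 0, 0⟩ ⟨134, -7, -512, 9, 15, 115, 303344, 0, 0, 0, 0, 0, 0⟩))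
    (.s1
    (.s0
    (.s2
    (.leaf (.box ⟨173, -12, -1122, 6, 13, 166, 462444, 0, 0, 0, 0, 0, 0⟩ ⟨78, -11, -512, 8, 18, 86, 159354, 0, 0, 0, 0, 0, 0⟩ ⟨78, -11, -512, 8, 18, 86, 159354, 0, 0, 0, 0, 0, 0⟩ ⟨77, -9, -512, 8, 17, 97, 168518, 0, 0, 0, 0, 0, 0⟩ ⟨77, -9, -512, 8, 17, 97, 168518, 0, 0, 0, 0, 0, 0⟩ ⟨110, -5, -721, 6, 13, 150, 315974, 0, 0, 0, 0, 0, 0⟩))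
    (.leaf (.box ⟨225, -11, -1194, 6, 12, 163, 461724, 0, 0, 0, 0, 0, 0⟩ ⟨83, -12, -512, 9, 14, 81, 159951, 0, 0, 0, 0, 0, 0⟩ ⟨83, -12, -512, 9, 14, 81, 159951, 0, 0, 0, 0, 0, 0⟩ ⟨78, -8, -512, 8, 13, 90, 171056, 0, 0, 0, 0, 0, 0⟩ ⟨78, -8, -512, 8, 13, 90, 171056, 0, 0, 0, 0, 0, 0⟩ ⟨105, -5, -768, 6, 10, 148, 324602, 0, 0, 0, 0, 0, 0⟩)))
    (.leaf (.box ⟨145, -10, -1357, 6, 15, 182, 531695, 0, 0, 0, 0, 0, 0⟩ ⟨53, -9, -512, 7, 16, 78, 183120, 0, 0, 0, 0, 0, 0⟩ ⟨53, -9, -512, 7, 16, 78, 183120, 0, 0, 0, 0, 0, 0⟩ ⟨63, -6, -512, 7, 14, 86, 194944, 0, 0, 0, 0, 0, 0⟩ ⟨63, -6, -512, 7, 14, 86, 194944, 0, 0, 0, 0, 0, 0⟩ ⟨96, -5, -791, 6, 12, 145, 368734, 0, 0, 0, 0, 0, 0⟩)))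
    (.s2
    (.leaf (.box ⟨84, -18, -512, 9, 20, 68, 171583, 0, 0, 0, 0, 0, 0⟩ ⟨0, 0, 0, 0, 0, 0, 159322, 0, 0, 0, 0, 0, 0⟩ ⟨0, 0, 0, 0, 0, 0, 159322, 0, 0, 0, 0, 0, 0⟩ ⟨0, 0, 0, 0, 0, 0, 148696, 0, 0, 0, 0, 0, 0⟩ ⟨0, 0, 0, 0, 0, 0, 148696, 0, 0, 0, 0, 0, 0⟩ ⟨92, -12, -512, 13, 24, 99, 139398, 0, 0, 0, 0, 0, 0⟩))
    (.leaf (.box ⟨95, -19, -512, 10, 17, 63, 172143, 0, 0, 0, 0, 0, 0⟩ ⟨0, 0, 0, 0, 0, 0, 160540, 0, 0, 0, 0, 0, 0⟩ ⟨0, 0, 0, 0, 0, 0, 160540, 0, 0, 0, 0, 0, 0⟩ ⟨0, 0, 0, 0, 0, 0, 150401, 0, 0, 0, 0, 0, 0⟩ ⟨0, 0, 0, 0, 0, 0, 150401, 0, 0, 0, 0, 0, 0⟩ ⟨82, -11, -512, 13, 18, 93, 141467, 0, 0, 0, 0, 0, 0⟩)))))))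

/-- A piece of the tree. -/
noncomputable def tree11 : Tree LeafX :=
  .s0
    (.s2
    (.s0
    (.s1
    (.leaf (.box ⟨393, -3, 512, 10, 4, 88, 95815, 0, 0, 0, 0, 0, 0⟩ ⟨0, 0, 0, 0, 0, 0, 80196, 0, 0, 0, 0, 0, 0⟩ ⟨0, 0, 0, 0, 0, 0, 80196, 0, 0, 0, 0, 0, 0⟩ ⟨0, 0, 0, 0, 0, 0, 68955, 0, 0, 0, 0, 0, 0⟩ ⟨0, 0, 0, 0, 0, 0, 68955, 0, 0, 0, 0, 0, 0⟩ ⟨258, -5, 512, 21, 8, 107, 60477, 0, 0, 0, 0, 0, 0⟩))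
    (.leaf (.box ⟨413, -6, 512, 7, 3, 70, 98683, 0, 0, 0, 0, 0, 0⟩ ⟨0, 0, 0, 0, 0, 0, 84966, 0, 0, 0, 0, 0, 0⟩ ⟨0, 0, 0, 0, 0, 0, 84966, 0, 0, 0, 0, 0, 0⟩ ⟨0, 0, 0, 0, 0, 0, 74596, 0, 0, 0, 0, 0, 0⟩ ⟨0, 0, 0, 0, 0, 0, 74596, 0, 0, 0, 0, 0, 0⟩ ⟨330, -9, 512, 14, 10, 101, 66482, 0, 0, 0, 0, 0, 0⟩)))
    (.s1
    (.s1
    (.s2
    (.s0
    (.leaf (.box ⟨186, -1, 775, 6, 1, 187, 119735, 0, 0, 0, 0, 0, 0⟩ ⟨0, 0, 0, 0, 0, 0, 100616, 0, 0, 0, 0, 0, 0⟩ ⟨0, 0, 0, 0, 0, 0, 100616, 0, 0, 0, 0, 0, 0⟩ ⟨0, 0, 0, 0, 0, 0, 86762, 0, 0, 0, 0, 0, 0⟩ ⟨0, 0, 0, 0, 0, 0, 86762, 0, 0, 0, 0, 0, 0⟩ ⟨79, -1, 560, 6, 1, 141, 76261, 0, 0, 0, 0, 0, 0⟩))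
    (.leaf (.box ⟨199, -1, 884, 6, -1, 240, 124427, 0, 0, 0, 0, 0, 0⟩ ⟨0, 0, 0, 0, 0, 0, 104623, 0, 0, 0, 0, 0, 0⟩ ⟨0, 0, 0, 0, 0, 0, 104623, 0, 0, 0, 0, 0, 0⟩ ⟨0, 0, 0, 0, 0, 0, 90257, 0, 0, 0, 0, 0, 0⟩ ⟨0, 0, 0, 0, 0, 0, 90257, 0, 0, 0, 0, 0, 0⟩ ⟨110, -1, 566, 6, -1, 155, 79359, 0, 0, 0, 0, 0, 0⟩)))
    (.s0
    (.leaf (.box ⟨155, -1, 792, 6, 0, 163, 112983, 0, 0, 0, 0, 0, 0⟩ ⟨0, 0, 0, 0, 0, 0, 95307, 0, 0, 0, 0, 0, 0⟩ ⟨0, 0, 0, 0, 0, 0, 95307, 0, 0, 0, 0, 0, 0⟩ ⟨0, 0, 0, 0, 0, 0, 82413, 0, 0, 0, 0, 0, 0⟩ ⟨0, 0, 0, 0, 0, 0, 82413, 0, 0, 0, 0, 0, 0⟩ ⟨63, -1, 512, 7, 0, 111, 72592, 0, 0, 0, 0, 0, 0⟩))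
    (.leaf (.box ⟨173, -1, 908, 6, -2, 216, 117887, 0, 0, 0, 0, 0, 0⟩ ⟨0, 0, 0, 0, 0, 0, 99473, 0, 0, 0, 0, 0, 0⟩ ⟨0, 0, 0, 0, 0, 0, 99473, 0, 0, 0, 0, 0, 0⟩ ⟨0, 0, 0, 0, 0, 0, 86034, 0, 0, 0, 0, 0, 0⟩ ⟨0, 0, 0, 0, 0, 0, 86034, 0, 0, 0, 0, 0, 0⟩ ⟨101, -1, 580, 6, -2, 137, 75794, 0, 0, 0, 0, 0, 0⟩))))
    (.leaf (.box ⟨219, -3, 512, 6, 2, 119, 114228, 0, 0, 0, 0, 0, 0⟩ ⟨0, 0, 0, 0, 0, 0, 97523, 0, 0, 0, 0, 0, 0⟩ ⟨0, 0, 0, 0, 0, 0, 97523, 0, 0, 0, 0, 0, 0⟩ ⟨0, 0, 0, 0, 0, 0, 85080, 0, 0, 0, 0, 0, 0⟩ ⟨0, 0, 0, 0, 0, 0, 85080, 0, 0, 0, 0, 0, 0⟩ ⟨140, -3, 512, 9, 4, 126, 75453, 0, 0, 0, 0, 0, 0⟩)))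
    (.leaf (.box ⟨302, -7, 512, 8, 2, 108, 116082, 0, 0, 0, 0, 0, 0⟩ ⟨0, 0, 0, 0, 0, 0, 100445, 0, 0, 0, 0, 0, 0⟩ ⟨0, 0, 0, 0, 0, 0, 100445, 0, 0, 0, 0, 0, 0⟩ ⟨0, 0, 0, 0, 0, 0, 88521, 0, 0, 0, 0, 0, 0⟩ ⟨0, 0, 0, 0, 0, 0, 88521, 0, 0, 0, 0, 0, 0⟩ ⟨160, -6, 512, 10, 5, 133, 79127, 0, 0, 0, 0, 0, 0⟩))))
    (.s0
    (.leaf (.box ⟨424, -12, 512, 19, 7, 62, 79144, 0, 0, 0, 0, 0, 0⟩ ⟨0, 0, 0, 0, 0, 0, 66914, 0, 0, 0, 0, 0, 0⟩ ⟨0, 0, 0, 0, 0, 0, 66914, 0, 0, 0, 0, 0, 0⟩ ⟨0, 0, 0, 0, 0, 0, 57958, 0, 0, 0, 0, 0, 0⟩ ⟨0, 0, 0, 0, 0, 0, 57958, 0, 0, 0, 0, 0, 0⟩ ⟨502, -20, 512, 36, 17, 78, 51116, 0, 0, 0, 0, 0, 0⟩))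
    (.leaf (.box ⟨242, -8, 512, 12, 2, 97, 102085, 0, 0, 0, 0, 0, 0⟩ ⟨0, 0, 0, 0, 0, 0, 87025, 0, 0, 0, 0, 0, 0⟩ ⟨0, 0, 0, 0, 0, 0, 87025, 0, 0, 0, 0, 0, 0⟩ ⟨0, 0, 0, 0, 0, 0, 75837, 0, 0, 0, 0, 0, 0⟩ ⟨0, 0, 0, 0, 0, 0, 75837, 0, 0, 0, 0, 0, 0⟩ ⟨228, -12, 512, 22, 3, 107, 67197, 0, 0, 0, 0, 0, 0⟩))))
    (.s0
    (.s2
    (.s1
    (.leaf (.box ⟨392, -2, 512, 8, -1, 183, 121434, 0, 0, 0, 0, 0, 0⟩ ⟨0, 0, 0, 0, 0, 0, 102458, 0, 0, 0, 0, 0, 0⟩ ⟨0, 0, 0, 0, 0, 0, 102458, 0, 0, 0, 0, 0, 0⟩ ⟨0, 0, 0, 0, 0, 0, 88611, 0, 0, 0, 0, 0, 0⟩ ⟨0, 0, 0, 0, 0, 0, 88611, 0, 0, 0, 0, 0, 0⟩ ⟨314, -3, 512, 12, -2, 188, 78061, 0, 0, 0, 0, 0, 0⟩))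
    (.leaf (.box ⟨349, -9, 512, 11, 0, 162, 123207, 0, 0, 0, 0, 0, 0⟩ ⟨0, 0, 0, 0, 0, 0, 106642, 0, 0, 0, 0, 0, 0⟩ ⟨0, 0, 0, 0, 0, 0, 106642, 0, 0, 0, 0, 0, 0⟩ ⟨0, 0, 0, 0, 0, 0, 94003, 0, 0, 0, 0, 0, 0⟩ ⟨0, 0, 0, 0, 0, 0, 94003, 0, 0, 0, 0, 0, 0⟩ ⟨368, -9, 512, 14, 2, 210, 84042, 0, 0, 0, 0, 0, 0⟩)))
    (.leaf (.box ⟨512, -8, 308, 13, -1, 128, 112756, 0, 0, 0, 0, 0, 0⟩ ⟨0, 0, 0, 0, 0, 0, 95476, 0, 0, 0, 0, 0, 0⟩ ⟨0, 0, 0, 0, 0, 0, 95476, 0, 0, 0, 0, 0, 0⟩ ⟨0, 0, 0, 0, 0, 0, 82788, 0, 0, 0, 0, 0, 0⟩ ⟨0, 0, 0, 0, 0, 0, 82788, 0, 0, 0, 0, 0, 0⟩ ⟨512, -10, 363, 20, -3, 134, 73076, 0, 0, 0, 0, 0, 0⟩)))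
    (.leaf (.box ⟨512, -6, -112, 12, 0, 103, 122194, 0, 0, 0, 0, 0, 0⟩ ⟨0, 0, 0, 0, 0, 0, 102605, 0, 0, 0, 0, 0, 0⟩ ⟨0, 0, 0, 0, 0, 0, 102605, 0, 0, 0, 0, 0, 0⟩ ⟨0, 0, 0, 0, 0, 0, 88428, 0, 0, 0, 0, 0, 0⟩ ⟨0, 0, 0, 0, 0, 0, 88428, 0, 0, 0, 0, 0, 0⟩ ⟨512, -7, -87, 18, 0, 111, 77693, 0, 0, 0, 0, 0, 0⟩)))

/-- A piece of the tree. -/
noncomputable def tree12 : Tree LeafX :=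
  .s0
    (.s1
    (.s0
    (.leaf (.box ⟨379, -15, 512, 13, -1, 48, 101120, 0, 0, 0, 0, 0, 0⟩ ⟨0, 0, 0, 0, 0, 0, 89504, 0, 0, 0, 0, 0, 0⟩ ⟨0, 0, 0, 0, 0, 0, 89504, 0, 0, 0, 0, 0, 0⟩ ⟨0, 0, 0, 0, 0, 0, 80281, 0, 0, 0, 0, 0, 0⟩ ⟨0, 0, 0, 0, 0, 0, 80281, 0, 0, 0, 0, 0, 0⟩ ⟨444, -21, 512, 25, 4, 77, 72781, 0, 0, 0, 0, 0, 0⟩))
    (.leaf (.box ⟨328, -28, 512, 21, -6, 77, 120525, 0, 0, 0, 0, 0, 0⟩ ⟨0, 0, 0, 0, 0, 0, 106822, 0, 0, 0, 0, 0, 0⟩ ⟨0, 0, 0, 0, 0, 0, 106822, 0, 0, 0, 0, 0, 0⟩ ⟨0, 0, 0, 0, 0, 0, 95916, 0, 0, 0, 0, 0, 0⟩ ⟨0, 0, 0, 0, 0, 0, 95916, 0, 0, 0, 0, 0, 0⟩ ⟨379, -35, 512, 38, -5, 128, 87030, 0, 0, 0, 0, 0, 0⟩)))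
    (.leaf (.box ⟨512, -29, 467, 30, -9, 38, 120867, 0, 0, 0, 0, 0, 0⟩ ⟨0, 0, 0, 0, 0, 0, 101951, 0, 0, 0, 0, 0, 0⟩ ⟨0, 0, 0, 0, 0, 0, 101951, 0, 0, 0, 0, 0, 0⟩ ⟨0, 0, 0, 0, 0, 0, 88154, 0, 0, 0, 0, 0, 0⟩ ⟨0, 0, 0, 0, 0, 0, 88154, 0, 0, 0, 0, 0, 0⟩ ⟨512, -26, 268, 37, -10, 37, 77646, 0, 0, 0, 0, 0, 0⟩)))
    (.s0
    (.s2
    (.leaf (.box ⟨512, -18, 354, 12, -3, 81, 382598, 0, 0, 0, 0, 0, 0⟩ ⟨512, -67, 396, 54, -13, 114, 109798, 0, 0, 0, 0, 0, 0⟩ ⟨512, -67, 396, 54, -13, 114, 109798, 0, 0, 0, 0, 0, 0⟩ ⟨512, -73, 420, 69, -15, 153, 109464, 0, 0, 0, 0, 0, 0⟩ ⟨512, -73, 420, 69, -15, 153, 109464, 0, 0, 0, 0, 0, 0⟩ ⟨512, -38, 369, 41, -8, 170, 194198, 0, 0, 0, 0, 0, 0⟩))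
    (.leaf (.box ⟨512, -54, 256, 36, -14, 44, 113122, 0, 0, 0, 0, 0, 0⟩ ⟨0, 0, 0, 0, 0, 0, 100484, 0, 0, 0, 0, 0, 0⟩ ⟨0, 0, 0, 0, 0, 0, 100484, 0, 0, 0, 0, 0, 0⟩ ⟨0, 0, 0, 0, 0, 0, 90385, 0, 0, 0, 0, 0, 0⟩ ⟨0, 0, 0, 0, 0, 0, 90385, 0, 0, 0, 0, 0, 0⟩ ⟨512, -60, 87, 63, -23, 73, 82131, 0, 0, 0, 0, 0, 0⟩)))
    (.s1
    (.leaf (.box ⟨512, -36, -42, 27, -5, 89, 124848, 0, 0, 0, 0, 0, 0⟩ ⟨0, 0, 0, 0, 0, 0, 110661, 0, 0, 0, 0, 0, 0⟩ ⟨0, 0, 0, 0, 0, 0, 110661, 0, 0, 0, 0, 0, 0⟩ ⟨0, 0, 0, 0, 0, 0, 99369, 0, 0, 0, 0, 0, 0⟩ ⟨0, 0, 0, 0, 0, 0, 99369, 0, 0, 0, 0, 0, 0⟩ ⟨512, -23, -136, 27, -5, 95, 90167, 0, 0, 0, 0, 0, 0⟩))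
    (.leaf (.box ⟨512, -80, 50, 49, -18, 59, 113089, 0, 0, 0, 0, 0, 0⟩ ⟨0, 0, 0, 0, 0, 0, 100590, 0, 0, 0, 0, 0, 0⟩ ⟨0, 0, 0, 0, 0, 0, 100590, 0, 0, 0, 0, 0, 0⟩ ⟨0, 0, 0, 0, 0, 0, 90579, 0, 0, 0, 0, 0, 0⟩ ⟨0, 0, 0, 0, 0, 0, 90579, 0, 0, 0, 0, 0, 0⟩ ⟨512, -56, -140, 63, -23, 74, 82379, 0, 0, 0, 0, 0, 0⟩))))

/-- A piece of the tree. -/
noncomputable def tree13 : Tree LeafX :=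
  .s1
    (.s2
    (.leaf (.box ⟨512, -10, -499, 22, 7, 67, 138410, 0, 0, 0, 0, 0, 0⟩ ⟨0, 0, 0, 0, 0, 0, 117229, 0, 0, 0, 0, 0, 0⟩ ⟨0, 0, 0, 0, 0, 0, 117229, 0, 0, 0, 0, 0, 0⟩ ⟨0, 0, 0, 0, 0, 0, 101670, 0, 0, 0, 0, 0, 0⟩ ⟨0, 0, 0, 0, 0, 0, 101670, 0, 0, 0, 0, 0, 0⟩ ⟨427, -10, -512, 28, 12, 86, 89757, 0, 0, 0, 0, 0, 0⟩))
    (.s0
    (.leaf (.box ⟨384, -3, -512, 15, 3, 68, 138787, 0, 0, 0, 0, 1946969714, 0⟩ ⟨0, 0, 0, 0, 0, 0, 116025, 0, 0, 0, 0, 0, 0⟩ ⟨0, 0, 0, 0, 0, 0, 116025, 0, 0, 0, 0, 0, 0⟩ ⟨0, 0, 0, 0, 0, 0, 99677, 0, 0, 0, 0, 0, 0⟩ ⟨0, 0, 0, 0, 0, 0, 99677, 0, 0, 0, 0, 0, 0⟩ ⟨345, -4, -512, 19, 5, 81, 87366, 0, 0, 0, 0, 223600844, 0⟩))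
    (.leaf (.box ⟨80, -2, -512, 11, 7, 62, 197630, 0, 0, 0, 0, 1233064991, 0⟩ ⟨0, 0, 0, 0, 0, 0, 168253, 0, 0, 0, 0, 0, 0⟩ ⟨0, 0, 0, 0, 0, 0, 168253, 0, 0, 0, 0, 0, 0⟩ ⟨0, 0, 0, 0, 0, 0, 146479, 0, 0, 0, 0, 0, 0⟩ ⟨0, 0, 0, 0, 0, 0, 146479, 0, 0, 0, 0, 0, 0⟩ ⟨80, -3, -512, 19, 10, 72, 129694, 0, 0, 0, 0, 1114807111, 0⟩))))
    (.s2
    (.s1
    (.s0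
    (.leaf (.box ⟨512, -15, -506, 11, 2, 98, 410737, 0, 0, 0, 0, 0, 0⟩ ⟨446, -30, -512, 29, 7, 106, 121932, 0, 0, 0, 0, 0, 0⟩ ⟨446, -30, -512, 29, 7, 106, 121932, 0, 0, 0, 0, 0, 0⟩ ⟨415, -23, -512, 26, 7, 112, 120839, 0, 0, 0, 0, 0, 0⟩ ⟨415, -23, -512, 26, 7, 112, 120839, 0, 0, 0, 0, 0, 0⟩ ⟨371, -9, -512, 13, 4, 118, 216439, 0, 0, 0, 0, 0, 0⟩))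
    (.leaf (.box ⟨94, -10, -512, 11, 12, 64, 176209, 0, 0, 0, 0, 0, 0⟩ ⟨0, 0, 0, 0, 0, 0, 159239, 0, 0, 0, 0, 0, 0⟩ ⟨0, 0, 0, 0, 0, 0, 159239, 0, 0, 0, 0, 0, 0⟩ ⟨0, 0, 0, 0, 0, 0, 145250, 0, 0, 0, 0, 0, 0⟩ ⟨0, 0, 0, 0, 0, 0, 145250, 0, 0, 0, 0, 0, 0⟩ ⟨91, -8, -512, 15, 14, 84, 133520, 0, 0, 0, 0, 0, 0⟩)))
    (.s0
    (.s1
    (.leaf (.box ⟨501, -58, -512, 35, 4, 93, 133727, 0, 0, 0, 0, 0, 0⟩ ⟨0, 0, 0, 0, 0, 0, 121854, 0, 0, 0, 0, 0, 0⟩ ⟨0, 0, 0, 0, 0, 0, 121854, 0, 0, 0, 0, 0, 0⟩ ⟨0, 0, 0, 0, 0, 0, 111918, 0, 0, 0, 0, 0, 0⟩ ⟨0, 0, 0, 0, 0, 0, 111918, 0, 0, 0, 0, 0, 0⟩ ⟨336, -22, -512, 27, 2, 116, 103479, 0, 0, 0, 0, 0, 0⟩))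
    (.s3
    (.leaf (.box ⟨476, -19, -512, 11, 0, 92, 392475, 0, 0, 0, 0, 776706984, 0⟩ ⟨403, -44, -512, 35, -4, 104, 117830, 0, 0, 0, 0, 0, 0⟩ ⟨403, -44, -512, 35, -4, 104, 117830, 0, 0, 0, 0, 0, 0⟩ ⟨358, -31, -512, 32, -5, 110, 124416, 0, 0, 0, 0, 0, 0⟩ ⟨358, -31, -512, 32, -5, 110, 124416, 0, 0, 0, 0, 0, 0⟩ ⟨328, -13, -512, 17, -3, 115, 233948, 0, 0, 0, 0, 0, 0⟩))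
    (.leaf (.box ⟨441, -55, -512, 32, 1, 87, 145986, 0, 0, 0, 0, 820649191, 0⟩ ⟨0, 0, 0, 0, 0, 0, 136775, 0, 0, 0, 0, 0, 0⟩ ⟨0, 0, 0, 0, 0, 0, 136775, 0, 0, 0, 0, 0, 0⟩ ⟨0, 0, 0, 0, 0, 0, 128656, 0, 0, 0, 0, 0, 0⟩ ⟨0, 0, 0, 0, 0, 0, 128656, 0, 0, 0, 0, 0, 0⟩ ⟨328, -30, -512, 37, -4, 116, 121447, 0, 0, 0, 0, 0, 0⟩))))
    (.s1
    (.leaf (.box ⟨91, -12, -512, 11, 12, 63, 177961, 0, 0, 0, 0, 0, 0⟩ ⟨0, 0, 0, 0, 0, 0, 164385, 0, 0, 0, 0, 0, 0⟩ ⟨0, 0, 0, 0, 0, 0, 164385, 0, 0, 0, 0, 0, 0⟩ ⟨0, 0, 0, 0, 0, 0, 152734, 0, 0, 0, 0, 0, 0⟩ ⟨0, 0, 0, 0, 0, 0, 152734, 0, 0, 0, 0, 0, 0⟩ ⟨83, -9, -512, 16, 12, 86, 142624, 0, 0, 0, 0, 0, 0⟩))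
    (.leaf (.box ⟨80, -19, -512, 16, 12, 62, 178152, 0, 0, 0, 0, 0, 0⟩ ⟨0, 0, 0, 0, 0, 0, 166054, 0, 0, 0, 0, 0, 0⟩ ⟨0, 0, 0, 0, 0, 0, 166054, 0, 0, 0, 0, 0, 0⟩ ⟨0, 0, 0, 0, 0, 0, 155494, 0, 0, 0, 0, 0, 0⟩ ⟨0, 0, 0, 0, 0, 0, 155494, 0, 0, 0, 0, 0, 0⟩ ⟨80, -13, -512, 22, 9, 87, 146196, 0, 0, 0, 0, 0, 0⟩)))))
    (.s0
    (.leaf (.box ⟨447, -12, -512, 16, -2, 71, 395543, 48233108, 0, 0, 0, 2372706121, 0⟩ ⟨372, -37, -512, 58, -7, 76, 111988, 0, 0, 0, 0, 2784172361, 0⟩ ⟨372, -37, -512, 58, -7, 76, 111988, 0, 0, 0, 0, 2784172361, 0⟩ ⟨342, -32, -512, 57, -8, 79, 112081, 0, 0, 0, 0, 2696681999, 0⟩ ⟨342, -32, -512, 57, -8, 79, 112081, 0, 0, 0, 0, 2696681999, 0⟩ ⟨327, -16, -512, 32, -5,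 82, 202346, 0, 0, 0, 0, 717109404, 0⟩))
    (.leaf (.box ⟨58, -11, -512, 26, 7, 63, 200313, 0, 0, 0, 0, 1776791343, 0⟩ ⟨0, 0, 0, 0, 0, 0, 178251, 0, 0, 0, 0, 0, 0⟩ ⟨0, 0, 0, 0, 0, 0, 178251, 0, 0, 0, 0, 0, 0⟩ ⟨0, 0, 0, 0, 0, 0, 160567, 0, 0, 0, 0, 0, 0⟩ ⟨0, 0, 0, 0, 0, 0, 160567, 0, 0, 0, 0, 0, 0⟩ ⟨95, -13, -512, 40, 8, 78, 146074, 0, 0, 0, 0, 483377059, 0⟩))))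

/-- A piece of the tree. -/
noncomputable def tree14 : Tree LeafX :=
  .s1
    (.s0
    (.leaf (.box ⟨177, 8, -512, 23, 19, 76, 403254, 0, 0, 0, 0, 0, 0⟩ ⟨0, 0, 0, 0, 0, 0, 319991, 0, 0, 0, 0, 0, 0⟩ ⟨0, 0, 0, 0, 0, 0, 319991, 0, 0, 0, 0, 0, 0⟩ ⟨0, 0, 0, 0, 0, 0, 265228, 0, 0, 0, 0, 0, 0⟩ ⟨0, 0, 0, 0, 0, 0, 265228, 0, 0, 0, 0, 0, 0⟩ ⟨201, 39, -512, 59, 42, 87, 226469, 0, 0, 0, 0, 0, 0⟩))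
    (.leaf (.box ⟨187, 9, -512, 23, 18, 108, 738159, 0, 0, 0, 0, 0, 0⟩ ⟨0, 0, 0, 0, 0, 0, 565415, 0, 0, 0, 0, 0, 0⟩ ⟨0, 0, 0, 0, 0, 0, 565415, 0, 0, 0, 0, 0, 0⟩ ⟨0, 0, 0, 0, 0, 0, 458189, 0, 0, 0, 0, 0, 0⟩ ⟨0, 0, 0, 0, 0, 0, 458189, 0, 0, 0, 0, 0, 0⟩ ⟨383, 53, -512, 68, 45, 124, 385149, 0, 0, 0, 0, 0, 0⟩)))
    (.s0
    (.leaf (.box ⟨160, 3, -512, 14, 13, 76, 279534, 0, 0, 0, 0, 0, 0⟩ ⟨0, 0, 0, 0, 0, 0, 232340, 0, 0, 0, 0, 0, 0⟩ ⟨0, 0, 0, 0, 0, 0, 232340, 0, 0, 0, 0, 0, 0⟩ ⟨0, 0, 0, 0, 0, 0, 198780, 0, 0, 0, 0, 0, 0⟩ ⟨0, 0, 0, 0, 0, 0, 198780, 0, 0, 0, 0, 0, 0⟩ ⟨154, 8, -512, 30, 23, 84, 173691, 0, 0, 0, 0, 0, 0⟩))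
    (.s0
    (.leaf (.box ⟨113, 2, -512, 11, 9, 99, 524476, 0, 0, 0, 0, 0, 0⟩ ⟨0, 0, 0, 0, 0, 0, 411768, 0, 0, 0, 0, 0, 0⟩ ⟨0, 0, 0, 0, 0, 0, 411768, 0, 0, 0, 0, 0, 0⟩ ⟨0, 0, 0, 0, 0, 0, 338932, 0, 0, 0, 0, 0, 0⟩ ⟨0, 0, 0, 0, 0, 0, 338932, 0, 0, 0, 0, 0, 0⟩ ⟨143, 9, -512, 22, 18, 102, 287990, 0, 0, 0, 0, 0, 0⟩))
    (.s2
    (.leaf (.box ⟨76, 2, -512, 7, 9, 115, 735174, 0, 0, 0, 0, 0, 0⟩ ⟨0, 0, 0, 0, 0, 0, 560807, 0, 0, 0, 0, 0, 0⟩ ⟨0, 0, 0, 0, 0, 0, 560807, 0, 0, 0, 0, 0, 0⟩ ⟨0, 0, 0, 0, 0, 0, 453295, 0, 0, 0, 0, 0, 0⟩ ⟨0, 0, 0, 0, 0, 0, 453295, 0, 0, 0, 0, 0, 0⟩ ⟨95, 8, -512, 16, 17, 116, 380373, 0, 0, 0, 0, 0, 0⟩))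
    (.leaf (.box ⟨133, 2, -512, 12, 6, 125, 713079, 0, 0, 0, 0, 0, 0⟩ ⟨0, 0, 0, 0, 0, 0, 568582, 0, 0, 0, 0, 0, 0⟩ ⟨0, 0, 0, 0, 0, 0, 568582, 0, 0, 0, 0, 0, 0⟩ ⟨0, 0, 0, 0, 0, 0, 472779, 0, 0, 0, 0, 0, 0⟩ ⟨0, 0, 0, 0, 0, 0, 472779, 0, 0, 0, 0, 0, 0⟩ ⟨193, 8, -512, 22, 11, 125, 404605, 0, 0, 0, 0, 0, 0⟩)))))

/-- A piece of the tree. -/
noncomputable def tree15 : Tree LeafX :=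
  .leaf (.skip 0 8)

/-- A piece of the tree. -/
noncomputable def tree16 : Tree LeafX :=
  .leaf (.box ⟨145, 3, -512, 11, 7, 149, 1016306, 0, 0, 0, 0, 0, 0⟩ ⟨0, 0, 0, 0, 0, 0, 758207, 0, 0, 0, 0, 0, 0⟩ ⟨0, 0, 0, 0, 0, 0, 758207, 0, 0, 0, 0, 0, 0⟩ ⟨0, 0, 0, 0, 0, 0, 604651, 0, 0, 0, 0, 0, 0⟩ ⟨0, 0, 0, 0, 0, 0, 604651, 0, 0, 0, 0, 0, 0⟩ ⟨163, 13, -512, 22, 12, 144, 502817, 0, 0, 0, 0, 0, 0⟩)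

/-- A piece of the tree. -/
noncomputable def tree17 : Tree LeafX :=
  .s0
    (.leaf (.box ⟨113, 3, -512, 10, 5, 147, 970002, 0, 0, 0, 0, 0, 0⟩ ⟨0, 0, 0, 0, 0, 0, 761055, 0, 0, 0, 0, 0, 0⟩ ⟨0, 0, 0, 0, 0, 0, 761055, 0, 0, 0, 0, 0, 0⟩ ⟨0, 0, 0, 0, 0, 0, 626172, 0, 0, 0, 0, 0, 0⟩ ⟨0, 0, 0, 0, 0, 0, 626172, 0, 0, 0, 0, 0, 0⟩ ⟨155, 8, -512, 18, 9, 145, 531902, 0, 0, 0, 0, 0, 0⟩))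
    (.leaf (.box ⟨130, 3, -512, 10, 3, 181, 1308700, 0, 0, 0, 0, 0, 0⟩ ⟨0, 0, 0, 0, 0, 0, 1011305, 0, 0, 0, 0, 0, 0⟩ ⟨0, 0, 0, 0, 0, 0, 1011305, 0, 0, 0, 0, 0, 0⟩ ⟨0, 0, 0, 0, 0, 0, 824046, 0, 0, 0, 0, 0, 0⟩ ⟨0, 0, 0, 0, 0, 0, 824046, 0, 0, 0, 0, 0, 0⟩ ⟨198, 11, -512, 21, 4, 177, 695299, 0, 0, 0, 0, 0, 0⟩))

/-- A piece of the tree. -/
noncomputable def tree18 : Tree LeafX :=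
  .s0
    (.leaf (.box ⟨149, 2, -512, 7, 5, 168, 1107624, 0, 0, 0, 0, 0, 6003078652⟩ ⟨0, 0, 0, 0, 0, 0, 856129, 0, 0, 0, 0, 0, 0⟩ ⟨0, 0, 0, 0, 0, 0, 856129, 0, 0, 0, 0, 0, 0⟩ ⟨0, 0, 0, 0, 0, 0, 697709, 0, 0, 0, 0, 0, 0⟩ ⟨0, 0, 0, 0, 0, 0, 697709, 0, 0, 0, 0, 0, 0⟩ ⟨254, 7, -512, 15, 11, 176, 588762, 0, 0, 0, 0, 0, 0⟩))
    (.leaf (.skip 0 8))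

/-- A piece of the tree. -/
noncomputable def tree19 : Tree LeafX :=
  .s2
    (.leaf (.box ⟨123, 1, -564, 6, 1, 180, 972793, 0, 0, 0, 0, 0, 0⟩ ⟨0, 0, 0, 0, 0, 0, 776914, 0, 0, 0, 0, 0, 0⟩ ⟨0, 0, 0, 0, 0, 0, 776914, 0, 0, 0, 0, 0, 0⟩ ⟨0, 0, 0, 0, 0, 0, 646697, 0, 0, 0, 0, 0, 0⟩ ⟨0, 0, 0, 0, 0, 0, 646697, 0, 0, 0, 0, 0, 0⟩ ⟨122, 3, -512, 10, 1, 153, 553864, 0, 0, 0, 0, 0, 0⟩))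
    (.s0
    (.leaf (.box ⟨103, 1, -635, 6, 0, 207, 974185, 0, 0, 0, 0, 0, 0⟩ ⟨0, 0, 0, 0, 0, 0, 783081, 0, 0, 0, 0, 0, 0⟩ ⟨0, 0, 0, 0, 0, 0, 783081, 0, 0, 0, 0, 0, 0⟩ ⟨0, 0, 0, 0, 0, 0, 654658, 0, 0, 0, 0, 0, 0⟩ ⟨0, 0, 0, 0, 0, 0, 654658, 0, 0, 0, 0, 0, 0⟩ ⟨105, 2, -512, 8, 0, 154, 562422, 0, 0, 0, 0, 0, 0⟩))
    (.s2
    (.s1
    (.leaf (.box ⟨141, 1, -968, 6, 0, 354, 1189360, 0, 0, 0, 0, 0, 0⟩ ⟨0, 0, 0, 0, 0, 0, 934060, 0, 0, 0, 0, 0, 0⟩ ⟨0, 0, 0, 0, 0, 0, 934060, 0, 0, 0, 0, 0, 0⟩ ⟨0, 0, 0, 0, 0, 0, 768993, 0, 0, 0, 0, 0, 0⟩ ⟨0, 0, 0, 0, 0, 0, 768993, 0, 0, 0, 0, 0, 0⟩ ⟨100, 2, -560, 6, -1, 194, 653505, 0, 0, 0, 0, 0, 0⟩))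
    (.leaf (.box ⟨140, 1, -1036, 6, -4, 381, 1129255, 0, 0, 0, 0, 0, 0⟩ ⟨0, 0, 0, 0, 0, 0, 901186, 0, 0, 0, 0, 0, 0⟩ ⟨0, 0, 0, 0, 0, 0, 901186, 0, 0, 0, 0, 0, 0⟩ ⟨0, 0, 0, 0, 0, 0, 749761, 0, 0, 0, 0, 0, 0⟩ ⟨0, 0, 0, 0, 0, 0, 749761, 0, 0, 0, 0, 0, 0⟩ ⟨76, 1, -526, 6, -4, 173, 641903, 0, 0, 0, 0, 0, 0⟩)))
    (.s1
    (.s3
    (.leaf (.box ⟨518, 1, -3696, 6, -2, 1465, 5411706, 0, 0, 0, 0, 0, 0⟩ ⟨113, 1, -789, 6, -2, 309, 938110, 0, 0, 0, 0, 0, 0⟩ ⟨113, 1, -789, 6, -2, 309, 938110, 0, 0, 0, 0, 0, 0⟩ ⟨98, 1, -609, 6, -2, 234, 763699, 0, 0, 0, 0, 0, 0⟩ ⟨98, 1, -609, 6, -2, 234, 763699, 0, 0, 0, 0, 0, 0⟩ ⟨172, 2, -926, 6, -2, 347, 1120004, 0, 0, 0, 0, 0, 0⟩))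
    (.leaf (.box ⟨166, 1, -1166, 6, -1, 451, 1304220, 0, 0, 0, 0, 0, 0⟩ ⟨0, 0, 0, 0, 0, 0, 1077182, 0, 0, 0, 0, 0, 0⟩ ⟨0, 0, 0, 0, 0, 0, 1077182, 0, 0, 0, 0, 0, 0⟩ ⟨0, 0, 0, 0, 0, 0, 917469, 0, 0, 0, 0, 0, 0⟩ ⟨0, 0, 0, 0, 0, 0, 917469, 0, 0, 0, 0, 0, 0⟩ ⟨123, 2, -707, 6, -2, 257, 799001, 0, 0, 0, 0, 0, 0⟩)))
    (.leaf (.box ⟨143, 1, -978, 6, -6, 383, 1128995, 0, 0, 0, 0, 0, 0⟩ ⟨0, 0, 0, 0, 0, 0, 904145, 0, 0, 0, 0, 0, 0⟩ ⟨0, 0, 0, 0, 0, 0, 904145, 0, 0, 0, 0, 0, 0⟩ ⟨0, 0, 0, 0, 0, 0, 753983, 0, 0, 0, 0, 0, 0⟩ ⟨0, 0, 0, 0, 0, 0, 753983, 0, 0, 0, 0, 0, 0⟩ ⟨88, 1, -578, 6, -6, 199, 646594, 0, 0, 0, 0, 0, 0⟩)))))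

/-- A piece of the tree. -/
noncomputable def tree20 : Tree LeafX :=
  .s2
    (.s0
    (.s0
    (.leaf (.box ⟨95, 1, -696, 6, -1, 260, 1304431, 0, 0, 0, 0, 0, 0⟩ ⟨0, 0, 0, 0, 0, 0, 1025624, 0, 0, 0, 0, 0, 0⟩ ⟨0, 0, 0, 0, 0, 0, 1025624, 0, 0, 0, 0, 0, 0⟩ ⟨0, 0, 0, 0, 0, 0, 845012, 0, 0, 0, 0, 0, 0⟩ ⟨0, 0, 0, 0, 0, 0, 845012, 0, 0, 0, 0, 0, 0⟩ ⟨96, 2, -512, 8, -2, 177, 718486, 0, 0, 0, 0, 0, 0⟩))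
    (.s1
    (.leaf (.skip 0 8))
    (.leaf (.box ⟨544, 1, -4142, 6, -5, 1667, 5970554, 0, 0, 0, 0, 0, 0⟩ ⟨94, 1, -731, 6, -5, 286, 1105964, 0, 0, 0, 0, 0, 0⟩ ⟨94, 1, -731, 6, -5, 286, 1105964, 0, 0, 0, 0, 0, 0⟩ ⟨78, 1, -557, 6, -5, 210, 889688, 0, 0, 0, 0, 0, 0⟩ ⟨78, 1, -557, 6, -5, 210, 889688, 0, 0, 0, 0, 0, 0⟩ ⟨146, 2, -1025, 6, -7, 369, 1293324, 0, 0, 0, 0, 0, 0⟩))))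
    (.s1
    (.leaf (.skip 0 8))
    (.s2
    (.leaf (.box ⟨132, 1, -933, 6, -7, 403, 1499589, 0, 0, 0, 0, 0, 34974694962⟩ ⟨0, 0, 0, 0, 0, 0, 1170517, 0, 0, 0, 0, 0, 0⟩ ⟨0, 0, 0, 0, 0, 0, 1170517, 0, 0, 0, 0, 0, 0⟩ ⟨0, 0, 0, 0, 0, 0, 959879, 0, 0, 0, 0, 0, 0⟩ ⟨0, 0, 0, 0, 0, 0, 959879, 0, 0, 0, 0, 0, 0⟩ ⟨83, 2, -544, 6, -8, 210, 813489, 0, 0, 0, 0, 0, 0⟩))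
    (.s1
    (.leaf (.skip 0 8))
    (.leaf (.box ⟨165, 1, -1106, 6, -12, 514, 1495674, 0, 0, 0, 0, 0, 46325910396⟩ ⟨0, 0, 0, 0, 0, 0, 1173379, 0, 0, 0, 0, 0, 0⟩ ⟨0, 0, 0, 0, 0, 0, 1173379, 0, 0, 0, 0, 0, 0⟩ ⟨0, 0, 0, 0, 0, 0, 965359, 0, 0, 0, 0, 0, 0⟩ ⟨0, 0, 0, 0, 0, 0, 965359, 0, 0, 0, 0, 0, 0⟩ ⟨92, 2, -647, 6, -13, 261, 819988, 0, 0, 0, 0, 0, 0⟩))))))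
    (.s2
    (.s0
    (.s1
    (.s0
    (.leaf (.box ⟨120, 1, -1056, 6, -2, 432, 1365845, 0, 0, 0, 0, 0, 0⟩ ⟨0, 0, 0, 0, 0, 0, 1064443, 0, 0, 0, 0, 0, 0⟩ ⟨0, 0, 0, 0, 0, 0, 1064443, 0, 0, 0, 0, 0, 0⟩ ⟨0, 0, 0, 0, 0, 0, 872015, 0, 0, 0, 0, 0, 0⟩ ⟨0, 0, 0, 0, 0, 0, 872015, 0, 0, 0, 0, 0, 0⟩ ⟨101, 2, -626, 6, -3, 243, 738508, 0, 0, 0, 0, 0, 0⟩))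
    (.leaf (.skip 0 8)))
    (.s0
    (.leaf (.box ⟨405, 1, -3883, 6, -6, 1600, 5531582, 0, 0, 0, 0, 0, 0⟩ ⟨101, 1, -952, 6, -8, 380, 1033850, 0, 0, 0, 0, 0, 0⟩ ⟨101, 1, -952, 6, -8, 380, 1033850, 0, 0, 0, 0, 0, 0⟩ ⟨90, 1, -795, 6, -8, 305, 850252, 0, 0, 0, 0, 0, 0⟩ ⟨90, 1, -795, 6, -8, 305, 850252, 0, 0, 0, 0, 0, 0⟩ ⟨133, 1, -1096, 6, -8, 399, 1253341, 0, 0, 0, 0, 0, 0⟩))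
    (.s1
    (.leaf (.box ⟨689, 1, -6215, 6, -11, 2773, 6112602, 0, 0, 0, 0, 0, 838543994392⟩ ⟨128, 1, -1162, 6, -11, 504, 1125654, 0, 0, 0, 0, 0, 0⟩ ⟨128, 1, -1162, 6, -11, 504, 1125654, 0, 0, 0, 0, 0, 0⟩ ⟨98, 1, -858, 6, -10, 359, 907024, 0, 0, 0, 0, 0, 0⟩ ⟨98, 1, -858, 6, -10, 359, 907024, 0, 0, 0, 0, 0, 0⟩ ⟨170, 2, -1431, 6, -12, 571, 1318054, 0, 0, 0, 0, 0, 0⟩))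
    (.leaf (.box ⟨161, 1, -1511, 6, -15, 674, 1398475, 0, 0, 0, 0, 0, 0⟩ ⟨0, 0, 0, 0, 0, 0, 1105028, 0, 0, 0, 0, 0, 0⟩ ⟨0, 0, 0, 0, 0, 0, 1105028, 0, 0, 0, 0, 0, 0⟩ ⟨0, 0, 0, 0, 0, 0, 913372, 0, 0, 0, 0, 0, 0⟩ ⟨0, 0, 0, 0, 0, 0, 913372, 0, 0, 0, 0, 0, 0⟩ ⟨83, 1, -836, 6, -14, 321, 778371, 0, 0, 0, 0, 0, 0⟩)))))
    (.s1
    (.leaf (.skip 0 8))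
    (.s1
    (.leaf (.skip 0 8))
    (.leaf (.box ⟨505, 1, -3047, 6, -10, 1547, 6363419, 0, 0, 0, 0, 0, 562322889914⟩ ⟨140, 1, -867, 6, -15, 422, 1180902, 0, 0, 0, 0, 0, 0⟩ ⟨140, 1, -867, 6, -15, 422, 1180902, 0, 0, 0, 0, 0, 0⟩ ⟨106, 1, -649, 6, -14, 300, 958543, 0, 0, 0, 0, 0, 0⟩ ⟨106, 1, -649, 6, -14, 300, 958543, 0, 0, 0, 0, 0, 0⟩ ⟨172, 2, -1088, 6, -15, 471, 1404079, 0, 0, 0, 0, 0, 0⟩)))))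
    (.s0
    (.s1
    (.s0
    (.leaf (.box ⟨132, 1, -1062, 6, -4, 471, 1362676, 0, 0, 0, 0, 0, 20256213618⟩ ⟨0, 0, 0, 0, 0, 0, 1064648, 0, 0, 0, 0, 0, 0⟩ ⟨0, 0, 0, 0, 0, 0, 1064648, 0, 0, 0, 0, 0, 0⟩ ⟨0, 0, 0, 0, 0, 0, 873587, 0, 0, 0, 0, 0, 0⟩ ⟨0, 0, 0, 0, 0, 0, 873587, 0, 0, 0, 0, 0, 0⟩ ⟨116, 2, -626, 6, -5, 263, 740667, 0, 0, 0, 0, 0, 0⟩))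
    (.leaf (.skip 0 8)))
    (.s0
    (.leaf (.box ⟨119, 1, -1047, 6, -9, 466, 1303400, 0, 0, 0, 0, 0, 0⟩ ⟨0, 0, 0, 0, 0, 0, 1035025, 0, 0, 0, 0, 0, 0⟩ ⟨0, 0, 0, 0, 0, 0, 1035025, 0, 0, 0, 0, 0, 0⟩ ⟨0, 0, 0, 0, 0, 0, 858297, 0, 0, 0, 0, 0, 0⟩ ⟨0, 0, 0, 0, 0, 0, 858297, 0, 0, 0, 0, 0, 0⟩ ⟨89, 1, -652, 6, -10, 251, 733119, 0, 0, 0, 0, 0, 0⟩))
    (.leaf (.box ⟨138, 1, -1126, 6, -13, 548, 1398797, 0, 0, 0, 0, 0, 0⟩ ⟨0, 0, 0, 0, 0, 0, 1106024, 0, 0, 0, 0, 0, 0⟩ ⟨0, 0, 0, 0, 0, 0, 1106024, 0, 0, 0, 0, 0, 0⟩ ⟨0, 0, 0, 0, 0, 0, 914595, 0, 0, 0, 0, 0, 0⟩ ⟨0, 0, 0, 0, 0, 0, 914595, 0, 0, 0, 0, 0, 0⟩ ⟨94, 1, -603, 6, -12, 253, 779654, 0, 0, 0, 0, 0, 0⟩))))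
    (.leaf (.box ⟨115, 1, -549, 6, -7, 309, 1506829, 0, 0, 0, 0, 0, 26968837061⟩ ⟨0, 0, 0, 0, 0, 0, 1180309, 0, 0, 0, 0, 0, 0⟩ ⟨0, 0, 0, 0, 0, 0, 1180309, 0, 0, 0, 0, 0, 0⟩ ⟨0, 0, 0, 0, 0, 0, 970096, 0, 0, 0, 0, 0, 0⟩ ⟨0, 0, 0, 0, 0, 0, 970096, 0, 0, 0, 0, 0, 0⟩ ⟨185, 3, -512, 11, -12, 261, 823440, 0, 0, 0, 0, 0, 0⟩))))

/-- A piece of the tree. -/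
noncomputable def tree21 : Tree LeafX :=
  .leaf (.skip 0 8)

/-- A piece of the tree. -/
noncomputable def tree22 : Tree LeafX :=
  .s1
    (.leaf (.skip 0 8))
    (.s2
    (.s0
    (.s0
    (.leaf (.box ⟨443, 1, -1827, 6, 8, 248, 1631549, 0, 0, 0, 0, 0, 0⟩ ⟨128, 1, -512, 11, 11, 72, 318395, 0, 0, 0, 0, 0, 0⟩ ⟨128, 1, -512, 11, 11, 72, 318395, 0, 0, 0, 0, 0, 0⟩ ⟨150, 2, -512, 13, 14, 74, 269421, 0, 0, 0, 0, 0, 0⟩ ⟨150, 2, -512, 13, 14, 74, 269421, 0, 0, 0, 0, 0, 0⟩ ⟨160, 2, -512, 9, 10, 78, 415167, 0, 0, 0, 0, 0, 0⟩))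
    (.s2
    (.leaf (.box ⟨113, 1, -512, 7, 10, 86, 522092, 0, 0, 0, 0, 0, 0⟩ ⟨0, 0, 0, 0, 0, 0, 418295, 0, 0, 0, 0, 0, 0⟩ ⟨0, 0, 0, 0, 0, 0, 418295, 0, 0, 0, 0, 0, 0⟩ ⟨0, 0, 0, 0, 0, 0, 348925, 0, 0, 0, 0, 0, 0⟩ ⟨0, 0, 0, 0, 0, 0, 348925, 0, 0, 0, 0, 0, 0⟩ ⟨162, 5, -512, 14, 21, 96, 299290, 0, 0, 0, 0, 0, 0⟩))
    (.leaf (.box ⟨158, 1, -512, 7, 8, 96, 508274, 0, 0, 0, 0, 0, 0⟩ ⟨0, 0, 0, 0, 0, 0, 414632, 0, 0, 0, 0, 0, 0⟩ ⟨0, 0, 0, 0, 0, 0, 414632, 0, 0, 0, 0, 0, 0⟩ ⟨0, 0, 0, 0, 0, 0, 350127, 0, 0, 0, 0, 0, 0⟩ ⟨0, 0, 0, 0, 0, 0, 350127, 0, 0, 0, 0, 0, 0⟩ ⟨248, 3, -512, 15, 16, 108, 302989, 0, 0, 0, 0, 0, 0⟩))))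
    (.s0
    (.s2
    (.leaf (.box ⟨137, 2, -512, 8, 10, 111, 689905, 0, 0, 0, 0, 0, 0⟩ ⟨0, 0, 0, 0, 0, 0, 545820, 0, 0, 0, 0, 0, 0⟩ ⟨0, 0, 0, 0, 0, 0, 545820, 0, 0, 0, 0, 0, 0⟩ ⟨0, 0, 0, 0, 0, 0, 451520, 0, 0, 0, 0, 0, 0⟩ ⟨0, 0, 0, 0, 0, 0, 451520, 0, 0, 0, 0, 0, 0⟩ ⟨258, 7, -512, 18, 23, 128, 385004, 0, 0, 0, 0, 0, 0⟩))
    (.leaf (.box ⟨255, 2, -512, 10, 9, 142, 653113, 0, 0, 0, 0, 0, 0⟩ ⟨0, 0, 0, 0, 0, 0, 528932, 0, 0, 0, 0, 0, 0⟩ ⟨0, 0, 0, 0, 0, 0, 528932, 0, 0, 0, 0, 0, 0⟩ ⟨0, 0, 0, 0, 0, 0, 444429, 0, 0, 0, 0, 0, 0⟩ ⟨0, 0, 0, 0, 0, 0, 444429, 0, 0, 0, 0, 0, 0⟩ ⟨512, 7, -510, 27, 20, 170, 383207, 0, 0, 0, 0, 0, 0⟩)))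
    (.leaf (.skip 0 8))))
    (.s2
    (.s0
    (.s0
    (.leaf (.box ⟨895, 0, -2379, 6, 7, 384, 1621393, 0, 0, 0, 0, 0, 0⟩ ⟨199, 0, -512, 7, 7, 84, 321299, 0, 0, 0, 0, 0, 0⟩ ⟨199, 0, -512, 7, 7, 84, 321299, 0, 0, 0, 0, 0, 0⟩ ⟨212, 0, -512, 9, 8, 86, 285277, 0, 0, 0, 0, 0, 0⟩ ⟨212, 0, -512, 9, 8, 86, 285277, 0, 0, 0, 0, 0, 0⟩ ⟨238, 0, -586, 6, 6, 102, 462805, 0, 0, 0, 0, 0, 0⟩))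
    (.s2
    (.leaf (.box ⟨203, 0, -512, 7, 6, 117, 499498, 0, 0, 0, 0, 0, 0⟩ ⟨0, 0, 0, 0, 0, 0, 414216, 0, 0, 0, 0, 0, 0⟩ ⟨0, 0, 0, 0, 0, 0, 414216, 0, 0, 0, 0, 0, 0⟩ ⟨0, 0, 0, 0, 0, 0, 353808, 0, 0, 0, 0, 0, 0⟩ ⟨0, 0, 0, 0, 0, 0, 353808, 0, 0, 0, 0, 0, 0⟩ ⟨310, 1, -512, 11, 11, 125, 308776, 0, 0, 0, 0, 0, 0⟩))
    (.leaf (.box ⟨376, 0, -512, 8, 4, 150, 495110, 0, 0, 0, 0, 0, 0⟩ ⟨0, 0, 0, 0, 0, 0, 414203, 0, 0, 0, 0, 0, 0⟩ ⟨0, 0, 0, 0, 0, 0, 414203, 0, 0, 0, 0, 0, 0⟩ ⟨0, 0, 0, 0, 0, 0, 356025, 0, 0, 0, 0, 0, 0⟩ ⟨0, 0, 0, 0, 0, 0, 356025, 0, 0, 0, 0, 0, 0⟩ ⟨432, 0, -512, 13, 6, 146, 312176, 0, 0, 0, 0, 0, 0⟩))))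
    (.s0
    (.s1
    (.leaf (.skip 0 8))
    (.leaf (.box ⟨512, 1, -234, 11, 0, 139, 622337, 0, 0, 0, 0, 0, 0⟩ ⟨0, 0, 0, 0, 0, 0, 515502, 0, 0, 0, 0, 0, 0⟩ ⟨0, 0, 0, 0, 0, 0, 515502, 0, 0, 0, 0, 0, 0⟩ ⟨0, 0, 0, 0, 0, 0, 439973, 0, 0, 0, 0, 0, 0⟩ ⟨0, 0, 0, 0, 0, 0, 439973, 0, 0, 0, 0, 0, 0⟩ ⟨512, 1, -266, 19, 0, 148, 383747, 0, 0, 0, 0, 0, 0⟩)))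
    (.leaf (.skip 0 8))))
    (.s0
    (.s2
    (.leaf (.box ⟨512, -1, -317, 14, 1, 95, 387406, 0, 0, 0, 0, 3174047833, 0⟩ ⟨0, 0, 0, 0, 0, 0, 327062, 0, 0, 0, 0, 0, 0⟩ ⟨0, 0, 0, 0, 0, 0, 327062, 0, 0, 0, 0, 0, 0⟩ ⟨0, 0, 0, 0, 0, 0, 282982, 0, 0, 0, 0, 0, 0⟩ ⟨0, 0, 0, 0, 0, 0, 282982, 0, 0, 0, 0, 0, 0⟩ ⟨512, -2, -434, 23, 1, 111, 249373, 0, 0, 0, 0, 0, 0⟩))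
    (.leaf (.skip 8 0)))
    (.leaf (.skip 8 0)))))

/-- A piece of the tree. -/
noncomputable def tree23 : Tree LeafX :=
  .s0
    (.s0
    (.leaf (.box ⟨120, 0, -512, 9, 6, 72, 295859, 0, 0, 0, 0, 0, 0⟩ ⟨0, 0, 0, 0, 0, 0, 251399, 0, 0, 0, 0, 0, 0⟩ ⟨0, 0, 0, 0, 0, 0, 251399, 0, 0, 0, 0, 0, 0⟩ ⟨0, 0, 0, 0, 0, 0, 218555, 0, 0, 0, 0, 0, 0⟩ ⟨0, 0, 0, 0, 0, 0, 218555, 0, 0, 0, 0, 0, 0⟩ ⟨107, 0, -512, 15, 11, 78, 193301, 0, 0, 0, 0, 0, 0⟩))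
    (.s2
    (.leaf (.box ⟨115, 1, -512, 8, 6, 88, 395834, 0, 0, 0, 0, 0, 0⟩ ⟨0, 0, 0, 0, 0, 0, 333636, 0, 0, 0, 0, 0, 0⟩ ⟨0, 0, 0, 0, 0, 0, 333636, 0, 0, 0, 0, 0, 0⟩ ⟨0, 0, 0, 0, 0, 0, 288330, 0, 0, 0, 0, 0, 0⟩ ⟨0, 0, 0, 0, 0, 0, 288330, 0, 0, 0, 0, 0, 0⟩ ⟨121, 1, -512, 13, 11, 91, 253857, 0, 0, 0, 0, 0, 0⟩))
    (.s1
    (.leaf (.box ⟨156, 0, -552, 6, 6, 105, 453138, 0, 0, 0, 0, 0, 0⟩ ⟨0, 0, 0, 0, 0, 0, 376314, 0, 0, 0, 0, 0, 0⟩ ⟨0, 0, 0, 0, 0, 0, 376314, 0, 0, 0, 0, 0, 0⟩ ⟨0, 0, 0, 0, 0, 0, 321762, 0, 0, 0, 0, 0, 0⟩ ⟨0, 0, 0, 0, 0, 0, 321762, 0, 0, 0, 0, 0, 0⟩ ⟨158, 1, -512, 9, 8, 99, 281024, 0, 0, 0, 0, 0, 0⟩))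
    (.leaf (.box ⟨220, 0, -893, 6, 6, 166, 424414, 0, 0, 0, 0, 0, 0⟩ ⟨0, 0, 0, 0, 0, 0, 358258, 0, 0, 0, 0, 0, 0⟩ ⟨0, 0, 0, 0, 0, 0, 358258, 0, 0, 0, 0, 0, 0⟩ ⟨0, 0, 0, 0, 0, 0, 309945, 0, 0, 0, 0, 0, 0⟩ ⟨0, 0, 0, 0, 0, 0, 309945, 0, 0, 0, 0, 0, 0⟩ ⟨104, 0, -553, 6, 6, 102, 273114, 0, 0, 0, 0, 0, 0⟩)))))
    (.s2
    (.s0
    (.s1
    (.leaf (.box ⟨143, 1, -549, 6, 7, 122, 605521, 0, 0, 0, 0, 0, 0⟩ ⟨0, 0, 0, 0, 0, 0, 490092, 0, 0, 0, 0, 0, 0⟩ ⟨0, 0, 0, 0, 0, 0, 490092, 0, 0, 0, 0, 0, 0⟩ ⟨0, 0, 0, 0, 0, 0, 411624, 0, 0, 0, 0, 0, 0⟩ ⟨0, 0, 0, 0, 0, 0, 411624, 0, 0, 0, 0, 0, 0⟩ ⟨174, 3, -512, 11, 11, 117, 354815, 0, 0, 0, 0, 0, 0⟩))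
    (.leaf (.box ⟨136, 0, -573, 6, 4, 128, 536434, 0, 0, 0, 0, 0, 0⟩ ⟨0, 0, 0, 0, 0, 0, 447164, 0, 0, 0, 0, 0, 0⟩ ⟨0, 0, 0, 0, 0, 0, 447164, 0, 0, 0, 0, 0, 0⟩ ⟨0, 0, 0, 0, 0, 0, 383366, 0, 0, 0, 0, 0, 0⟩ ⟨0, 0, 0, 0, 0, 0, 383366, 0, 0, 0, 0, 0, 0⟩ ⟨114, 1, -512, 8, 5, 110, 335499, 0, 0, 0, 0, 0, 0⟩)))
    (.s2
    (.s1
    (.leaf (.box ⟨547, 1, -2057, 6, 5, 588, 3452675, 0, 0, 0, 0, 0, 0⟩ ⟨135, 2, -512, 7, 7, 148, 649384, 0, 0, 0, 0, 0, 0⟩ ⟨135, 2, -512, 7, 7, 148, 649384, 0, 0, 0, 0, 0, 0⟩ ⟨155, 3, -512, 10, 8, 150, 534705, 0, 0, 0, 0, 0, 0⟩ ⟨155, 3, -512, 10, 8, 150, 534705, 0, 0, 0, 0, 0, 0⟩ ⟨198, 2, -512, 7, 6, 152, 802043, 0, 0, 0, 0, 0, 0⟩))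
    (.s0
    (.leaf (.box ⟨121, 1, -833, 6, 3, 222, 728353, 0, 0, 0, 0, 0, 0⟩ ⟨0, 0, 0, 0, 0, 0, 597920, 0, 0, 0, 0, 0, 0⟩ ⟨0, 0, 0, 0, 0, 0, 597920, 0, 0, 0, 0, 0, 0⟩ ⟨0, 0, 0, 0, 0, 0, 507108, 0, 0, 0, 0, 0, 0⟩ ⟨0, 0, 0, 0, 0, 0, 507108, 0, 0, 0, 0, 0, 0⟩ ⟨85, 1, -512, 7, 2, 128, 440243, 0, 0, 0, 0, 0, 0⟩))
    (.leaf (.box ⟨101, 1, -619, 6, 0, 192, 846781, 0, 0, 0, 0, 0, 0⟩ ⟨0, 0, 0, 0, 0, 0, 689205, 0, 0, 0, 0, 0, 0⟩ ⟨0, 0, 0, 0, 0, 0, 689205, 0, 0, 0, 0, 0, 0⟩ ⟨0, 0, 0, 0, 0, 0, 581073, 0, 0, 0, 0, 0, 0⟩ ⟨0, 0, 0, 0, 0, 0, 581073, 0, 0, 0, 0, 0, 0⟩ ⟨111, 1, -512, 8, 0, 145, 502270, 0, 0, 0, 0, 0, 0⟩))))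
    (.s1
    (.leaf (.box ⟨663, 1, -2030, 6, 4, 662, 3408002, 0, 0, 0, 0, 0, 0⟩ ⟨177, 2, -512, 8, 5, 168, 648277, 0, 0, 0, 0, 0, 0⟩ ⟨177, 2, -512, 8, 5, 168, 648277, 0, 0, 0, 0, 0, 0⟩ ⟨220, 3, -512, 11, 6, 170, 542015, 0, 0, 0, 0, 0, 0⟩ ⟨220, 3, -512, 11, 6, 170, 542015, 0, 0, 0, 0, 0, 0⟩ ⟨269, 2, -512, 7, 4, 172, 823991, 0, 0, 0, 0, 0, 0⟩))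
    (.leaf (.box ⟨149, 1, -512, 8, -1, 164, 744785, 0, 0, 0, 0, 0, 0⟩ ⟨0, 0, 0, 0, 0, 0, 612248, 0, 0, 0, 0, 0, 0⟩ ⟨0, 0, 0, 0, 0, 0, 612248, 0, 0, 0, 0, 0, 0⟩ ⟨0, 0, 0, 0, 0, 0, 519756, 0, 0, 0, 0, 0, 0⟩ ⟨0, 0, 0, 0, 0, 0, 519756, 0, 0, 0, 0, 0, 0⟩ ⟨163, 1, -512, 9, -1, 146, 451541, 0, 0, 0, 0, 0, 0⟩)))))
    (.s0
    (.s2
    (.leaf (.box ⟨150, 1, -512, 9, 3, 129, 573074, 0, 0, 0, 0, 0, 0⟩ ⟨0, 0, 0, 0, 0, 0, 476903, 0, 0, 0, 0, 0, 0⟩ ⟨0, 0, 0, 0, 0, 0, 476903, 0, 0, 0, 0, 0, 0⟩ ⟨0, 0, 0, 0, 0, 0, 408372, 0, 0, 0, 0, 0, 0⟩ ⟨0, 0, 0, 0, 0, 0, 408372, 0, 0, 0, 0, 0, 0⟩ ⟨225, 1, -512, 13, 5, 123, 357061, 0, 0, 0, 0, 0, 0⟩))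
    (.leaf (.box ⟨227, 0, -512, 9, 1, 145, 592152, 0, 0, 0, 0, 0, 0⟩ ⟨0, 0, 0, 0, 0, 0, 492406, 0, 0, 0, 0, 0, 0⟩ ⟨0, 0, 0, 0, 0, 0, 492406, 0, 0, 0, 0, 0, 0⟩ ⟨0, 0, 0, 0, 0, 0, 421419, 0, 0, 0, 0, 0, 0⟩ ⟨0, 0, 0, 0, 0, 0, 421419, 0, 0, 0, 0, 0, 0⟩ ⟨290, 1, -512, 13, 2, 132, 368320, 0, 0, 0, 0, 0, 0⟩)))
    (.s2
    (.leaf (.box ⟨512, 1, -1058, 6, 0, 409, 3132065, 0, 0, 0, 0, 0, 0⟩ ⟨281, 2, -512, 15, -1, 193, 629300, 0, 0, 0, 0, 0, 0⟩ ⟨281, 2, -512, 15, -1, 193, 629300, 0, 0, 0, 0, 0, 0⟩ ⟨338, 2, -512, 17, -1, 186, 545158, 0, 0, 0, 0, 0, 0⟩ ⟨338, 2, -512, 17, -1, 186, 545158, 0, 0, 0, 0, 0, 0⟩ ⟨415, 2, -512, 11, -1, 179, 840507, 0, 0, 0, 0, 0, 0⟩))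
    (.leaf (.box ⟨512, 1, -512, 15, -4, 263, 784483, 0, 0, 0, 0, 0, 0⟩ ⟨0, 0, 0, 0, 0, 0, 641667, 0, 0, 0, 0, 0, 0⟩ ⟨0, 0, 0, 0, 0, 0, 641667, 0, 0, 0, 0, 0, 0⟩ ⟨0, 0, 0, 0, 0, 0, 542842, 0, 0, 0, 0, 0, 0⟩ ⟨0, 0, 0, 0, 0, 0, 542842, 0, 0, 0, 0, 0, 0⟩ ⟨512, 2, -414, 17, -5, 172, 470394, 0, 0, 0, 0, 0, 0⟩)))))

/-- A piece of the tree. -/
noncomputable def tree24 : Tree LeafX :=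
  .s2
    (.s0
    (.s0
    (.leaf (.box ⟨193, 0, -609, 6, 4, 96, 346222, 0, 0, 0, 0, 0, 0⟩ ⟨0, 0, 0, 0, 0, 0, 292086, 0, 0, 0, 0, 0, 0⟩ ⟨0, 0, 0, 0, 0, 0, 292086, 0, 0, 0, 0, 0, 0⟩ ⟨0, 0, 0, 0, 0, 0, 252589, 0, 0, 0, 0, 0, 0⟩ ⟨0, 0, 0, 0, 0, 0, 252589, 0, 0, 0, 0, 0, 0⟩ ⟨134, 0, -512, 6, 6, 82, 222502, 0, 0, 0, 0, 0, 0⟩))
    (.leaf (.box ⟨301, 0, -512, 7, 2, 112, 461021, 0, 0, 0, 0, 0, 0⟩ ⟨0, 0, 0, 0, 0, 0, 387059, 0, 0, 0, 0, 0, 0⟩ ⟨0, 0, 0, 0, 0, 0, 387059, 0, 0, 0, 0, 0, 0⟩ ⟨0, 0, 0, 0, 0, 0, 333548, 0, 0, 0, 0, 0, 0⟩ ⟨0, 0, 0, 0, 0, 0, 333548, 0, 0, 0, 0, 0, 0⟩ ⟨245, 0, -512, 9, 3, 104, 293035, 0, 0, 0, 0, 0, 0⟩)))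
    (.s2
    (.leaf (.box ⟨512, 0, -265, 15, -4, 137, 606793, 0, 0, 0, 0, 0, 0⟩ ⟨0, 0, 0, 0, 0, 0, 504640, 0, 0, 0, 0, 0, 0⟩ ⟨0, 0, 0, 0, 0, 0, 504640, 0, 0, 0, 0, 0, 0⟩ ⟨0, 0, 0, 0, 0, 0, 431926, 0, 0, 0, 0, 0, 0⟩ ⟨0, 0, 0, 0, 0, 0, 431926, 0, 0, 0, 0, 0, 0⟩ ⟨512, 1, -291, 20, -5, 110, 377527, 0, 0, 0, 0, 0, 0⟩))
    (.leaf (.box ⟨512, 0, -99, 13, -4, 91, 614444, 0, 0, 0, 0, 9265340149, 0⟩ ⟨0, 0, 0, 0, 0, 0, 512610, 0, 0, 0, 0, 0, 0⟩ ⟨0, 0, 0, 0, 0, 0, 512610, 0, 0, 0, 0, 0, 0⟩ ⟨0, 0, 0, 0, 0, 0, 439732, 0, 0, 0, 0, 0, 0⟩ ⟨0, 0, 0, 0, 0, 0, 439732, 0, 0, 0, 0, 0, 0⟩ ⟨512, 0, -183, 20, -6, 83, 384996, 0, 0, 0, 0, 16197548738, 0⟩))))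
    (.s0
    (.leaf (.box ⟨512, -1, -365, 14, 0, 81, 374817, 0, 0, 0, 0, 4708769840, 0⟩ ⟨0, 0, 0, 0, 0, 0, 315367, 0, 0, 0, 0, 0, 0⟩ ⟨0, 0, 0, 0, 0, 0, 315367, 0, 0, 0, 0, 0, 0⟩ ⟨0, 0, 0, 0, 0, 0, 272193, 0, 0, 0, 0, 0, 0⟩ ⟨0, 0, 0, 0, 0, 0, 272193, 0, 0, 0, 0, 0, 0⟩ ⟨380, -2, -512, 24, 1, 99, 239417, 0, 0, 0, 0, 5620061603, 0⟩))
    (.leaf (.skip 8 0)))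

/-- A piece of the tree. -/
noncomputable def tree25 : Tree LeafX :=
  .leaf (.skip 0 8)

/-- A piece of the tree. -/
noncomputable def tree26 : Tree LeafX :=
  .s0
    (.s2
    (.s0
    (.s2
    (.s1
    (.s0
    (.leaf (.box ⟨115, 1, -512, 6, 4, 187, 1077678, 0, 0, 0, 0, 0, 0⟩ ⟨0, 0, 0, 0, 0, 0, 847071, 0, 0, 0, 0, 0, 0⟩ ⟨0, 0, 0, 0, 0, 0, 847071, 0, 0, 0, 0, 0, 0⟩ ⟨0, 0, 0, 0, 0, 0, 697760, 0, 0, 0, 0, 0, 0⟩ ⟨0, 0, 0, 0, 0, 0, 697760, 0, 0, 0, 0, 0, 0⟩ ⟨225, 5, -512, 13, 8, 200, 593198, 0, 0, 0, 0, 0, 0⟩))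
    (.leaf (.skip 0 8)))
    (.s0
    (.s2
    (.leaf (.box ⟨105, 1, -699, 6, -1, 248, 982121, 0, 0, 0, 0, 0, 0⟩ ⟨0, 0, 0, 0, 0, 0, 792226, 0, 0, 0, 0, 0, 0⟩ ⟨0, 0, 0, 0, 0, 0, 792226, 0, 0, 0, 0, 0, 0⟩ ⟨0, 0, 0, 0, 0, 0, 663866, 0, 0, 0, 0, 0, 0⟩ ⟨0, 0, 0, 0, 0, 0, 663866, 0, 0, 0, 0, 0, 0⟩ ⟨108, 2, -512, 8, -2, 165, 571301, 0, 0, 0, 0, 0, 0⟩))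
    (.leaf (.box ⟨119, 1, -709, 6, -3, 270, 988080, 0, 0, 0, 0, 0, 0⟩ ⟨0, 0, 0, 0, 0, 0, 797916, 0, 0, 0, 0, 0, 0⟩ ⟨0, 0, 0, 0, 0, 0, 797916, 0, 0, 0, 0, 0, 0⟩ ⟨0, 0, 0, 0, 0, 0, 669135, 0, 0, 0, 0, 0, 0⟩ ⟨0, 0, 0, 0, 0, 0, 669135, 0, 0, 0, 0, 0, 0⟩ ⟨129, 1, -512, 9, -4, 173, 576146, 0, 0, 0, 0, 0, 0⟩)))
    (.s2
    (.s1
    (.leaf (.box ⟨159, 1, -931, 6, -3, 395, 1184528, 0, 0, 0, 0, 0, 0⟩ ⟨0, 0, 0, 0, 0, 0, 935739, 0, 0, 0, 0, 0, 0⟩ ⟨0, 0, 0, 0, 0, 0, 935739, 0, 0, 0, 0, 0, 0⟩ ⟨0, 0, 0, 0, 0, 0, 773317, 0, 0, 0, 0, 0, 0⟩ ⟨0, 0, 0, 0, 0, 0, 773317, 0, 0, 0, 0, 0, 0⟩ ⟨117, 2, -512, 6, -4, 203, 658940, 0, 0, 0, 0, 0, 0⟩))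
    (.leaf (.box ⟨144, 1, -905, 6, -8, 382, 1129921, 0, 0, 0, 0, 0, 0⟩ ⟨0, 0, 0, 0, 0, 0, 907835, 0, 0, 0, 0, 0, 0⟩ ⟨0, 0, 0, 0, 0, 0, 907835, 0, 0, 0, 0, 0, 0⟩ ⟨0, 0, 0, 0, 0, 0, 758710, 0, 0, 0, 0, 0, 0⟩ ⟨0, 0, 0, 0, 0, 0, 758710, 0, 0, 0, 0, 0, 0⟩ ⟨103, 1, -596, 6, -8, 216, 651664, 0, 0, 0, 0, 0, 0⟩)))
    (.leaf (.box ⟨118, 1, -601, 6, -5, 280, 1140063, 0, 0, 0, 0, 0, 0⟩ ⟨0, 0, 0, 0, 0, 0, 912255, 0, 0, 0, 0, 0, 0⟩ ⟨0, 0, 0, 0, 0, 0, 912255, 0, 0, 0, 0, 0, 0⟩ ⟨0, 0, 0, 0, 0, 0, 760326, 0, 0, 0, 0, 0, 0⟩ ⟨0, 0, 0, 0, 0, 0, 760326, 0, 0, 0, 0, 0, 0⟩ ⟨160, 2, -512, 9, -8, 208, 651777, 0, 0, 0, 0, 0, 0⟩)))))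
    (.s1
    (.s1
    (.leaf (.skip 0 8))
    (.leaf (.box ⟨242, 2, -512, 9, -1, 265, 1054500, 0, 0, 0, 0, 0, 707755221⟩ ⟨0, 0, 0, 0, 0, 0, 836410, 0, 0, 0, 0, 0, 0⟩ ⟨0, 0, 0, 0, 0, 0, 836410, 0, 0, 0, 0, 0, 0⟩ ⟨0, 0, 0, 0, 0, 0, 693070, 0, 0, 0, 0, 0, 0⟩ ⟨0, 0, 0, 0, 0, 0, 693070, 0, 0, 0, 0, 0, 0⟩ ⟨378, 4, -512, 15, -2, 274, 591672, 0, 0, 0, 0, 0, 0⟩)))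
    (.leaf (.box ⟨235, 1, -512, 8, -6, 255, 995174, 0, 0, 0, 0, 0, 0⟩ ⟨0, 0, 0, 0, 0, 0, 804349, 0, 0, 0, 0, 0, 0⟩ ⟨0, 0, 0, 0, 0, 0, 804349, 0, 0, 0, 0, 0, 0⟩ ⟨0, 0, 0, 0, 0, 0, 674931, 0, 0, 0, 0, 0, 0⟩ ⟨0, 0, 0, 0, 0, 0, 674931, 0, 0, 0, 0, 0, 0⟩ ⟨289, 2, -512, 14, -10, 213, 581386, 0, 0, 0, 0, 0, 0⟩))))
    (.s0
    (.s1
    (.leaf (.skip 0 8))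
    (.s2
    (.s1
    (.leaf (.box ⟨175, 1, -613, 6, -6, 340, 1350354, 0, 0, 0, 0, 0, 19028230796⟩ ⟨0, 0, 0, 0, 0, 0, 1059881, 0, 0, 0, 0, 0, 0⟩ ⟨0, 0, 0, 0, 0, 0, 1059881, 0, 0, 0, 0, 0, 0⟩ ⟨0, 0, 0, 0, 0, 0, 872252, 0, 0, 0, 0, 0, 0⟩ ⟨0, 0, 0, 0, 0, 0, 872252, 0, 0, 0, 0, 0, 0⟩ ⟨209, 3, -512, 10, -9, 266, 741062, 0, 0, 0, 0, 0, 0⟩))
    (.leaf (.box ⟨178, 1, -662, 6, -11, 362, 1300972, 0, 0, 0, 0, 0, 0⟩ ⟨0, 0, 0, 0, 0, 0, 1036899, 0, 0, 0, 0, 0, 0⟩ ⟨0, 0, 0, 0, 0, 0, 1036899, 0, 0, 0, 0, 0, 0⟩ ⟨0, 0, 0, 0, 0, 0, 861941, 0, 0, 0, 0, 0, 0⟩ ⟨0, 0, 0, 0, 0, 0, 861941, 0, 0, 0, 0, 0, 0⟩ ⟨147, 2, -512, 8, -13, 231, 737500, 0, 0, 0, 0, 0, 0⟩)))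
    (.leaf (.box ⟨293, 2, -512, 12, -14, 402, 1313945, 0, 0, 0, 0, 0, 0⟩ ⟨0, 0, 0, 0, 0, 0, 1042729, 0, 0, 0, 0, 0, 0⟩ ⟨0, 0, 0, 0, 0, 0, 1042729, 0, 0, 0, 0, 0, 0⟩ ⟨0, 0, 0, 0, 0, 0, 864322, 0, 0, 0, 0, 0, 0⟩ ⟨0, 0, 0, 0, 0, 0, 864322, 0, 0, 0, 0, 0, 0⟩ ⟨376, 4, -512, 18, -21, 322, 738044, 0, 0, 0, 0, 0, 0⟩))))
    (.leaf (.box ⟨512, 5, -480, 25, -9, 438, 1527422, 0, 0, 0, 0, 0, 162872707171⟩ ⟨0, 0, 0, 0, 0, 0, 1176948, 0, 0, 0, 0, 0, 0⟩ ⟨0, 0, 0, 0, 0, 0, 1176948, 0, 0, 0, 0, 0, 0⟩ ⟨0, 0, 0, 0, 0, 0, 957293, 0, 0, 0, 0, 0, 0⟩ ⟨0, 0, 0, 0, 0, 0, 957293, 0, 0, 0, 0, 0, 0⟩ ⟨512, 11, -170, 30, -7, 184, 806731, 0, 0, 0, 0, 0, 0⟩))))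
    (.s2
    (.leaf (.box ⟨512, 3, -156, 20, -9, 241, 1019935, 0, 0, 0, 0, 0, 32939825075⟩ ⟨0, 0, 0, 0, 0, 0, 817509, 0, 0, 0, 0, 0, 0⟩ ⟨0, 0, 0, 0, 0, 0, 817509, 0, 0, 0, 0, 0, 0⟩ ⟨0, 0, 0, 0, 0, 0, 682128, 0, 0, 0, 0, 0, 0⟩ ⟨0, 0, 0, 0, 0, 0, 682128, 0, 0, 0, 0, 0, 0⟩ ⟨512, 6, -76, 24, -7, 113, 585214, 0, 0, 0, 0, 0, 0⟩))
    (.leaf (.box ⟨512, 2, 55, 15, -9, 159, 1010768, 0, 0, 0, 0, 0, 0⟩ ⟨0, 0, 0, 0, 0, 0, 810813, 0, 0, 0, 0, 0, 0⟩ ⟨0, 0, 0, 0, 0, 0, 810813, 0, 0, 0, 0, 0, 0⟩ ⟨0, 0, 0, 0, 0, 0, 676905, 0, 0, 0, 0, 0, 0⟩ ⟨0, 0, 0, 0, 0, 0, 676905, 0, 0, 0, 0, 0, 0⟩ ⟨512, 4, 16, 20, -8, 77, 580957, 0, 0, 0, 0, 0, 0⟩))))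
    (.leaf (.skip 0 8))

theorem parts0 :
    (runPathS conQ supQ (fun n Qs i d x => leafR conQ seg n Qs i d x) [.d0 false, .d1 false, .d2 false] tree0 0 0 0
      (joinS (lay.B * lay.size) rootQ) = true) ∧
    (runPathS conQ supQ (fun n Qs i d x => leafR conQ seg n Qs i d x) [.d0 false, .d1 false, .d2 true, .d0 false, .d1 false, .d3 false, .d2 false] tree1 0 0 0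
      (joinS (lay.B * lay.size) rootQ) = true) ∧
    (runPathS conQ supQ (fun n Qs i d x => leafR conQ seg n Qs i d x) [.d0 false, .d1 false, .d2 true, .d0 false, .d1 false, .d3 false, .d2 true] tree2 0 0 0
      (joinS (lay.B * lay.size) rootQ) = true) ∧
    (runPathS conQ supQ (fun n Qs i d x => leafR conQ seg n Qs i d x) [.d0 false, .d1 false, .d2 true, .d0 false, .d1 false, .d3 true, .d2 false] tree3 0 0 0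
      (joinS (lay.B * lay.size) rootQ) = true) ∧
    (runPathS conQ supQ (fun n Qs i d x => leafR conQ seg n Qs i d x) [.d0 false, .d1 false, .d2 true, .d0 false, .d1 false, .d3 true, .d2 true] tree4 0 0 0
      (joinS (lay.B * lay.size) rootQ) = true) ∧
    (runPathS conQ supQ (fun n Qs i d x => leafR conQ seg n Qs i d x) [.d0 false, .d1 false, .d2 true, .d0 false, .d1 true] tree5 0 0 0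
      (joinS (lay.B * lay.size) rootQ) = true) ∧
    (runPathS conQ supQ (fun n Qs i d x => leafR conQ seg n Qs i d x) [.d0 false, .d1 false, .d2 true, .d0 true, .d1 false, .d1 false] tree6 0 0 0
      (joinS (lay.B * lay.size) rootQ) = true) ∧
    (runPathS conQ supQ (fun n Qs i d x => leafR conQ seg n Qs i d x) [.d0 false, .d1 false, .d2 true, .d0 true, .d1 false, .d1 true] tree7 0 0 0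
      (joinS (lay.B * lay.size) rootQ) = true) ∧
    (runPathS conQ supQ (fun n Qs i d x => leafR conQ seg n Qs i d x) [.d0 false, .d1 false, .d2 true, .d0 true, .d1 true] tree8 0 0 0
      (joinS (lay.B * lay.size) rootQ) = true) ∧
    (runPathS conQ supQ (fun n Qs i d x => leafR conQ seg n Qs i d x) [.d0 false, .d1 true, .d2 false, .d0 false] tree9 0 0 0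
      (joinS (lay.B * lay.size) rootQ) = true) ∧
    (runPathS conQ supQ (fun n Qs i d x => leafR conQ seg n Qs i d x) [.d0 false, .d1 true, .d2 false, .d0 true] tree10 0 0 0
      (joinS (lay.B * lay.size) rootQ) = true) ∧
    (runPathS conQ supQ (fun n Qs i d x => leafR conQ seg n Qs i d x) [.d0 false, .d1 true, .d2 true, .d0 false, .d1 false] tree11 0 0 0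
      (joinS (lay.B * lay.size) rootQ) = true) ∧
    (runPathS conQ supQ (fun n Qs i d x => leafR conQ seg n Qs i d x) [.d0 false, .d1 true, .d2 true, .d0 false, .d1 true] tree12 0 0 0
      (joinS (lay.B * lay.size) rootQ) = true) ∧
    (runPathS conQ supQ (fun n Qs i d x => leafR conQ seg n Qs i d x) [.d0 false, .d1 true, .d2 true, .d0 true] tree13 0 0 0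
      (joinS (lay.B * lay.size) rootQ) = true) ∧
    (runPathS conQ supQ (fun n Qs i d x => leafR conQ seg n Qs i d x) [.d0 true, .d1 false, .d2 false, .d0 false] tree14 0 0 0
      (joinS (lay.B * lay.size) rootQ) = true) ∧
    (runPathS conQ supQ (fun n Qs i d x => leafR conQ seg n Qs i d x) [.d0 true, .d1 false, .d2 false, .d0 true, .d1 false] tree15 0 0 0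
      (joinS (lay.B * lay.size) rootQ) = true) ∧
    (runPathS conQ supQ (fun n Qs i d x => leafR conQ seg n Qs i d x) [.d0 true, .d1 false, .d2 false, .d0 true, .d1 true, .d0 false, .d2 false] tree16 0 0 0
      (joinS (lay.B * lay.size) rootQ) = true) ∧
    (runPathS conQ supQ (fun n Qs i d x => leafR conQ seg n Qs i d x) [.d0 true, .d1 false, .d2 false, .d0 true, .d1 true, .d0 false, .d2 true, .d2 false] tree17 0 0 0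
      (joinS (lay.B * lay.size) rootQ) = true) ∧
    (runPathS conQ supQ (fun n Qs i d x => leafR conQ seg n Qs i d x) [.d0 true, .d1 false, .d2 false, .d0 true, .d1 true, .d0 false, .d2 true, .d2 true, .d1 false] tree18 0 0 0
      (joinS (lay.B * lay.size) rootQ) = true) ∧
    (runPathS conQ supQ (fun n Qs i d x => leafR conQ seg n Qs i d x) [.d0 true, .d1 false, .d2 false, .d0 true, .d1 true, .d0 false, .d2 true, .d2 true, .d1 true, .d0 false] tree19 0 0 0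
      (joinS (lay.B * lay.size) rootQ) = true) ∧
    (runPathS conQ supQ (fun n Qs i d x => leafR conQ seg n Qs i d x) [.d0 true, .d1 false, .d2 false, .d0 true, .d1 true, .d0 false, .d2 true, .d2 true, .d1 true, .d0 true] tree20 0 0 0
      (joinS (lay.B * lay.size) rootQ) = true) ∧
    (runPathS conQ supQ (fun n Qs i d x => leafR conQ seg n Qs i d x) [.d0 true, .d1 false, .d2 false, .d0 true, .d1 true, .d0 true] tree21 0 0 0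
      (joinS (lay.B * lay.size) rootQ) = true) ∧
    (runPathS conQ supQ (fun n Qs i d x => leafR conQ seg n Qs i d x) [.d0 true, .d1 false, .d2 true, .d0 false, .d1 false] tree22 0 0 0
      (joinS (lay.B * lay.size) rootQ) = true) ∧
    (runPathS conQ supQ (fun n Qs i d x => leafR conQ seg n Qs i d x) [.d0 true, .d1 false, .d2 true, .d0 false, .d1 true, .d2 false] tree23 0 0 0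
      (joinS (lay.B * lay.size) rootQ) = true) ∧
    (runPathS conQ supQ (fun n Qs i d x => leafR conQ seg n Qs i d x) [.d0 true, .d1 false, .d2 true, .d0 false, .d1 true, .d2 true] tree24 0 0 0
      (joinS (lay.B * lay.size) rootQ) = true) ∧
    (runPathS conQ supQ (fun n Qs i d x => leafR conQ seg n Qs i d x) [.d0 true, .d1 false, .d2 true, .d0 true, .d1 false] tree25 0 0 0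
      (joinS (lay.B * lay.size) rootQ) = true) ∧
    (runPathS conQ supQ (fun n Qs i d x => leafR conQ seg n Qs i d x) [.d0 true, .d1 false, .d2 true, .d0 true, .d1 true, .d2 false] tree26 0 0 0
      (joinS (lay.B * lay.size) rootQ) = true) :=
  ⟨by decide +kernel,
  by decide +kernel,
  by decide +kernel,
  by decide +kernel,
  by decide +kernel,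
  by decide +kernel,
  by decide +kernel,
  by decide +kernel,
  by decide +kernel,
  by decide +kernel,
  by decide +kernel,
  by decide +kernel,
  by decide +kernel,
  by decide +kernel,
  by decide +kernel,
  by decide +kernel,
  by decide +kernel,
  by decide +kernel,
  by decide +kernel,
  by decide +kernel,
  by decide +kernel,
  by decide +kernel,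
  by decide +kernel,
  by decide +kernel,
  by decide +kernel,
  by decide +kernel,
  by decide +kernel⟩

end Vale.Agent.P098.Six.S14
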